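import Vale.Agent.P237.Four.Defs
import Vale.Agent.P237.Profile.Segment

/-!
The functional for `ℝ⁴` along the path: continuity, right derivative, values at the two ends.
-/

namespace Vale.Agent.P237.Four

open Set MeasureTheory Filter Profile
open scoped Topology Real

variable {g : ℝ → ℝ}

/-- A weighted power of the path, integrated. -/
noncomputable def wpow (w : ℝ → ℝ) (k : ℕ) (g : ℝ → ℝ) (q : ℝ) : ℝ :=
  ∫ t, w t * path g q t ^ k ∂μI

lemma exists_bound {w : ℝ → ℝ} (hw : Continuous w) :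
    ∃ K, 0 ≤ K ∧ ∀ t ∈ Ioo (0:ℝ) 1, |w t| ≤ K := by
  obtain ⟨K, hK⟩ := isCompact_Icc.exists_bound_of_continuousOn (s := Icc (0:ℝ) 1) hw.continuousOn
  exact ⟨|K|, abs_nonneg K, fun t ht => (hK t (Ioo_subset_Icc_self ht)).trans (le_abs_self K)⟩

lemma path_pow_le (hg : Profile.Adm g) {q t : ℝ} (hq : q < 1) (ht : t ∈ Ioo (0:ℝ) 1) (k : ℕ) :
    path g q t ^ k ≤ g 0 ^ k :=
  pow_le_pow_left₀ (path_nonneg hg ht hq)
    ((path_le q t).trans (hg.le_zero (Ioo_subset_Icc_self ht))) k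

lemma norm_wpow_le (hg : Profile.Adm g) {w : ℝ → ℝ} {K q t : ℝ}
    (hK : ∀ t ∈ Ioo (0:ℝ) 1, |w t| ≤ K) (hq : q < 1) (ht : t ∈ Ioo (0:ℝ) 1) (k : ℕ) :
    ‖w t * path g q t ^ k‖ ≤ K * g 0 ^ k := by
  have h0 := path_nonneg hg ht hq
  rw [Real.norm_eq_abs, abs_mul, abs_of_nonneg (pow_nonneg h0 _)]
  exact mul_le_mul (hK t ht) (path_pow_le hg hq ht k) (pow_nonneg h0 _)
    ((abs_nonneg _).trans (hK t ht))

lemma wpow_aemeas (hg : Profile.Adm g) {w : ℝ → ℝ} (hw : Continuous w) {q : ℝ} (hq : q < 1)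
    (k : ℕ) : AEStronglyMeasurable (fun t => w t * path g q t ^ k) μI :=
  hw.aestronglyMeasurable.mul ((path_aemeas hg hq).pow k)

lemma integrable_wpow (hg : Profile.Adm g) {w : ℝ → ℝ} (hw : Continuous w) {q : ℝ} (hq : q < 1)
    (k : ℕ) : Integrable (fun t => w t * path g q t ^ k) μI := by
  obtain ⟨K, -, hK⟩ := exists_bound hw
  refine Integrable.of_bound (C := K * g 0 ^ k) (wpow_aemeas hg hw hq k) ?_
  filter_upwards [ae_mem] with t ht
  exact norm_wpow_le hg hK hq ht k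

lemma hasDeriv_wpow (hg : Profile.Adm g) {w : ℝ → ℝ} (hw : Continuous w) (k : ℕ) {q : ℝ}
    (hq0 : 0 ≤ q) (hq1 : q < 1) :
    HasDerivWithinAt (wpow w k g) (∫ t, (k : ℝ) * (w t * path g q t ^ (k - 1) * dpath g q t) ∂μI)
      (Ioi q) q := by
  obtain ⟨B, hqB, hB⟩ := exists_between hq1
  obtain ⟨K, hK0, hK⟩ := exists_bound hw
  refine deriv_integral_right (C := K * ((√(1 - B ^ 2) ^ 3)⁻¹ * k * g 0 ^ (k - 1))) hqB
    (fun a ha => integrable_wpow hg hw (ha.2.trans_lt hB) k) (fun a ha => ?_) ?_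
  · filter_upwards [ae_mem] with t ht
    obtain ⟨l, u⟩ := path_lip (g := g) ht ha.1.le ha.2 hB
    have n1 := path_nonneg hg ht hq1
    have n2 := path_nonneg hg ht (ha.2.trans_lt hB)
    have b1 := (path_le (g := g) q t).trans (hg.le_zero (Ioo_subset_Icc_self ht))
    have b2 := (path_le (g := g) a t).trans (hg.le_zero (Ioo_subset_Icc_self ht))
    have hg0 : 0 ≤ g 0 := zero_le_one.trans hg.one_le
    rw [← mul_sub, abs_mul]
    calc |w t| * |path g a t ^ k - path g q t ^ k|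
        ≤ K * (|path g a t - path g q t| * k * max |path g a t| |path g q t| ^ (k - 1)) :=
          mul_le_mul (hK t ht) (abs_pow_sub_pow_le _ _ _) (abs_nonneg _) hK0
      _ ≤ K * ((√(1 - B ^ 2) ^ 3)⁻¹ * (a - q) * k * g 0 ^ (k - 1)) := by
          rw [abs_of_nonneg l, abs_of_nonneg n1, abs_of_nonneg n2]
          refine mul_le_mul_of_nonneg_left (mul_le_mul (mul_le_mul_of_nonneg_right u k.cast_nonneg)
            (pow_le_pow_left₀ (le_max_of_le_left n2) (max_le b2 b1) _)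
            (pow_nonneg (le_max_of_le_left n2) _) ?_) hK0
          exact mul_nonneg (l.trans u) k.cast_nonneg
      _ = K * ((√(1 - B ^ 2) ^ 3)⁻¹ * k * g 0 ^ (k - 1)) * (a - q) := by ring
  · filter_upwards [ae_mem, ae_ne q] with t ht hne
    refine (((hasDeriv_path hg hq0 hq1 ht hne).fun_pow k).const_mul (w t)).congr_deriv ?_
    ring

lemma continuousOn_wpow (hg : Profile.Adm g) {w : ℝ → ℝ} (hw : Continuous w) (k : ℕ) {B : ℝ}
    (hB : B < 1) : ContinuousOn (wpow w k g) (Icc 0 B) := by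
  obtain ⟨K, -, hK⟩ := exists_bound hw
  refine continuousOn_of_dominated (bound := fun _ => K * g 0 ^ k)
    (fun a ha => wpow_aemeas hg hw (lt_of_le_of_lt ha.2 hB) k) (fun a ha => ?_)
    (integrable_const _) ?_
  · filter_upwards [ae_mem] with t ht
    exact norm_wpow_le hg hK (lt_of_le_of_lt ha.2 hB) ht k
  · filter_upwards [ae_mem] with t ht
    refine continuousOn_const.mul (ContinuousOn.pow ?_ k)
    unfold path tstar tang
    refine ContinuousOn.inf continuousOn_const (ContinuousOn.div (by fun_prop) (by fun_prop) ?_)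
    intro a ha
    exact (sqrt_pos_of (by linarith [le_max_right a t, ht.1])
      (max_lt (lt_of_le_of_lt ha.2 hB) ht.2)).ne'

lemma path_tendsto {t : ℝ} (ht : t ∈ Ioo (0:ℝ) 1) :
    Tendsto (fun q => path g q t) (𝓝[<] 1) (𝓝 (g t)) := by
  refine tendsto_const_nhds.congr' ?_
  have hS : Tendsto (fun q : ℝ => √(1 - q ^ 2) * g t) (𝓝[<] 1) (𝓝 0) := by
    have : Tendsto (fun q : ℝ => √(1 - q ^ 2) * g t) (𝓝 1) (𝓝 (√(1 - 1 ^ 2) * g t)) :=
      (by fun_prop : Continuous fun q : ℝ => √(1 - q ^ 2) * g t).tendsto 1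
    simpa using this.mono_left nhdsWithin_le_nhds
  filter_upwards [hS.eventually_lt_const (sub_pos.2 ht.2), Ioo_mem_nhdsLT ht.2] with q hq hq'
  have hq0 : 0 < √(1 - q ^ 2) := sqrt_pos_of (by linarith [hq'.1, ht.1]) hq'.2
  rw [path, tstar_of_le hq'.1.le, min_eq_left]
  rw [tang, le_div_iff₀ hq0]
  nlinarith [ht.1, hq'.2]

lemma tendsto_wpow (hg : Profile.Adm g) {w : ℝ → ℝ} (hw : Continuous w) (k : ℕ) :
    Tendsto (wpow w k g) (𝓝[<] 1) (𝓝 (∫ t in (0:ℝ)..1, w t * g t ^ k)) := by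
  obtain ⟨K, -, hK⟩ := exists_bound hw
  have hlt : ∀ᶠ q in 𝓝[<] (1:ℝ), q < 1 := self_mem_nhdsWithin
  rw [← muI_integral]
  refine tendsto_integral_filter_of_dominated_convergence (fun _ => K * g 0 ^ k)
    (hlt.mono fun q hq => wpow_aemeas hg hw hq k) (hlt.mono fun q hq => ?_) (integrable_const _) ?_
  · filter_upwards [ae_mem] with t ht
    exact norm_wpow_le hg hK hq ht k
  · filter_upwards [ae_mem] with t ht
    exact ((path_tendsto ht).pow k).const_mul _

lemma wpow_zero (hg : Profile.Adm g) (w : ℝ → ℝ) (k : ℕ) :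
    wpow w k g 0 = ∫ t in (0:ℝ)..1, w t * √(1 - t ^ 2) ^ k := by
  rw [wpow, muI_integral]
  exact ii_congr zero_le_one fun t ht => by rw [path_zero hg ht]

/-- The weight of the cube in the functional. -/
noncomputable def Par.w (P : Par) (t : ℝ) : ℝ := P.a + 6 * P.b * t ^ 2

lemma Par.continuous_w (P : Par) : Continuous P.w := by unfold Par.w; fun_prop

lemma psi_eq (P : Par) (g : ℝ → ℝ) (q : ℝ) :
    psi P g q = (1 - P.θ) * (3 / 2 * wpow (fun _ => 1) 2 g q)
      + P.θ * (3 / 2 * wpow (fun _ => 1) 2 g q) ^ 2 - 16 / (3 * π) * wpow P.w 3 g q := by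
  simp only [psi, yq, wpow, Par.w, one_mul]

lemma hasDeriv_psi (hg : Profile.Adm g) (P : Par) {q : ℝ} (hq0 : 0 ≤ q) (hq1 : q < 1) :
    HasDerivWithinAt (psi P g) (dpsi P g q) (Ioi q) q := by
  have e : psi P g = fun x => (1 - P.θ) * (3 / 2 * wpow (fun _ => 1) 2 g x)
      + P.θ * (3 / 2 * wpow (fun _ => 1) 2 g x) ^ 2 - 16 / (3 * π) * wpow P.w 3 g x :=
    funext (psi_eq P g)
  have h2 := (hasDeriv_wpow hg (continuous_const (y := (1:ℝ))) 2 hq0 hq1).const_mul (3 / 2 : ℝ)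
  have h3 := (hasDeriv_wpow hg P.continuous_w 3 hq0 hq1).const_mul (16 / (3 * π))
  rw [e]
  refine (((h2.const_mul (1 - P.θ)).add ((h2.fun_pow 2).const_mul P.θ)).sub h3).congr_deriv ?_
  simp only [dpsi, yq, wpow, Par.w, one_mul, integral_const_mul, show (2:ℕ) - 1 = 1 from rfl,
    show (3:ℕ) - 1 = 2 from rfl, pow_one]
  push_cast
  ring

lemma continuousOn_psi (hg : Profile.Adm g) (P : Par) {B : ℝ} (hB : B < 1) :
    ContinuousOn (psi P g) (Icc 0 B) := by
  have h2 := continuousOn_wpow hg (continuous_const (y := (1:ℝ))) 2 hB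
  have h3 := continuousOn_wpow hg P.continuous_w 3 hB
  rw [funext (psi_eq P g)]
  fun_prop

end Vale.Agent.P237.Four
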