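import Vale.Agent.P237.Four.Parts

/-!
# The certificate of the stage inequality for `ℝ⁴`

`S = √(1-q²)`, `m = (q-p)/S`.  The partitions of `[0,1] × [0,7/2]` were found by bisection.
-/

namespace Vale.Agent.P237.Four

open Stage (N)

/-- Part of the certificate. -/
def treeAaaaa : Tree :=
  .splitM (.splitS (.leaf 1070586818 (-4210818) 1055814) (.leaf 1053590895 (-12837070) 1107778)) (.splitS (.splitM (.leaf 1070586818 (-4210818) 1055814) (.splitS (.splitM (.leaf 1072954816 (-1049603) 262597) (.leaf 1072954816 (-1049603) 262597)) (.splitM (.leaf 1068747113 (-3161215) 265711) (.leaf 1068747113 (-3161215) 265711)))) (.splitM (.splitS (.leaf 1060281512 (-5310802) 272127) (.splitM (.leaf 1047454565 (-7526268) 282249) (.leaf 1047454565 (-7526268) 282249))) (.splitS (.splitM (.leaf 1060281512 (-5310802) 272127) (.splitS (.leaf 1063004445 (-2383279) 67537) (.leaf 1057694666 (-2927523) 68559))) (.splitM (.splitS (.leaf 1051287513 (-3480892) 69821) (.leaf 1043762766 (-4045377) 71342)) (.splitS (.leaf 1051287513 (-3480892) 69821) (.leaf 1043762766 (-4045377) 71342))))))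

/-- Part of the certificate. -/
def treeAaaaba : Tree :=
  .splitS (.splitM (.leaf 1018741199 (-22130370) 1225521) (.leaf 1018741199 (-22130370) 1225521)) (.splitM (.leaf 964082877 (-32748808) 1446376) (.splitS (.leaf 980800675 (-14928448) 343814) (.splitM (.leaf 948088716 (-17820360) 380662) (.splitS (.leaf 957091391 (-8529555) 92532) (.leaf 939276398 (-9290805) 97899)))))

/-- Part of the certificate. -/
def treeAaaabb : Tree :=
  .splitS (.splitM (.splitS (.splitM (.leaf 1030102994 (-9839812) 296758) (.leaf 1030102994 (-9839812) 296758)) (.splitM (.leaf 1007992590 (-12290558) 316723) (.splitS (.leaf 1014215615 (-5828571) 77761) (.leaf 1001927953 (-6461987) 80657)))) (.splitS (.splitM (.splitS (.leaf 1035096039 (-4623158) 73149) (.leaf 1025258353 (-5216654) 75275)) (.splitS (.leaf 1035096039 (-4623158) 73149) (.leaf 1025258353 (-5216654) 75275))) (.splitM (.splitS (.leaf 1014215615 (-5828571) 77761) (.splitM (.leaf 1001927953 (-6461987) 80657) (.leaf 1001927953 (-6461987) 80657))) (.leaf 1007992590 (-12290558) 316723)))) (.splitM (.splitS (.splitM (.splitS (.leaf 988348902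 (-7120434) 84027) (.leaf 973424380 (-7808014) 87952)) (.splitS (.leaf 988348902 (-7120434) 84027) (.splitM (.leaf 973424380 (-7808014) 87952) (.leaf 973424380 (-7808014) 87952)))) (.splitM (.splitS (.leaf 957091391 (-8529555) 92532) (.splitM (.leaf 939276398 (-9290805) 97899) (.leaf 939276398 (-9290805) 97899))) (.splitS (.splitM (.leaf 957091391 (-8529555) 92532) (.leaf 957091391 (-8529555) 92532)) (.splitM (.leaf 939276398 (-9290805) 97899) (.leaf 939276398 (-9290805) 97899))))) (.splitS (.splitM (.splitS (.splitM (.leaf 988348902 (-7120434) 84027) (.leaf 988348902 (-7120434) 84027)) (.leaf 973424380 (-7808014) 87952)) (.leaf 980800675 (-14928448) 343814)) (.splitM (.splitS (.leaf 957091391 (-8529555) 92532) (.leaf 939276398 (-9290805) 97899)) (.leaf 948088716 (-17820360) 380662))))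

/-- Part of the certificate. -/
def treeAaaab : Tree :=
  .splitM treeAaaaba treeAaaabb

/-- Part of the certificate. -/
def treeAaaa : Tree :=
  .splitS treeAaaaa treeAaaab

/-- Part of the certificate. -/
def treeAaaba : Tree :=
  .splitM (.splitS (.splitM (.splitS (.splitM (.splitS (.leaf 1073545181 (-262209) 65568) (.splitM (.leaf 1072495771 (-787394) 65760) (.leaf 1072495771 (-787394) 65760))) (.splitS (.leaf 1073545181 (-262209) 65568) (.leaf 1072495771 (-787394) 65760))) (.splitM (.splitS (.splitM (.leaf 1070393864 (-1314901) 66148) (.leaf 1070393864 (-1314901) 66148)) (.leaf 1067233239 (-1846315) 66738)) (.leaf 1068747113 (-3161215) 265711))) (.splitS (.splitM (.leaf 1072954816 (-1049603) 262597) (.leaf 1072954816 (-1049603) 262597)) (.leaf 1068747113 (-3161215) 265711))) (.splitM (.splitS (.splitM (.splitS (.leaf 1063004445 (-2383279) 67537) (.leaf 1057694666 (-2927523) 68559)) (.leaf 1060281512 (-5310802) 272127)) (.splitM (.leaf 1047454565 (-7526268) 282249) (.leaf 1047454565 (-7526268) 282249))) (.splitS (.leaf 1060281512 (-5310802) 272127) (.leaf 1047454565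 (-7526268) 282249)))) (.splitS (.splitM (.leaf 1070586818 (-4210818) 1055814) (.leaf 1070586818 (-4210818) 1055814)) (.splitM (.leaf 1053590895 (-12837070) 1107778) (.leaf 1053590895 (-12837070) 1107778)))

/-- Part of the certificate. -/
def treeAaabb : Tree :=
  .splitM (.splitS (.splitM (.splitS (.splitM (.leaf 1030102994 (-9839812) 296758) (.leaf 1030102994 (-9839812) 296758)) (.leaf 1007992590 (-12290558) 316723)) (.leaf 1018741199 (-22130370) 1225521)) (.splitM (.splitS (.leaf 980800675 (-14928448) 343814) (.leaf 948088716 (-17820360) 380662)) (.splitS (.leaf 980800675 (-14928448) 343814) (.leaf 948088716 (-17820360) 380662)))) (.splitS (.splitM (.leaf 1018741199 (-22130370) 1225521) (.leaf 1018741199 (-22130370) 1225521)) (.splitM (.splitS (.leaf 980800675 (-14928448) 343814) (.leaf 948088716 (-17820360) 380662)) (.splitS (.leaf 980800675 (-14928448) 343814) (.leaf 948088716 (-17820360) 380662))))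

/-- Part of the certificate. -/
def treeAaab : Tree :=
  .splitS treeAaaba treeAaabb

/-- Part of the certificate. -/
def treeAaa : Tree :=
  .splitM treeAaaa treeAaab

/-- Part of the certificate. -/
def treeAabaaaa : Tree :=
  .splitM (.splitS (.leaf 909258836 (-21060436) 431578) (.leaf 863482122 (-24788691) 503991)) (.splitS (.splitM (.leaf 909258836 (-21060436) 431578) (.splitS (.splitM (.leaf 919893212 (-10098701) 104219) (.leaf 919893212 (-10098701) 104219)) (.splitM (.leaf 898840273 (-10961735) 111716) (.leaf 898840273 (-10961735) 111716)))) (.splitM (.splitS (.leaf 875997048 (-11890462) 120688) (.leaf 851219209 (-12898230) 131540)) (.splitS (.splitM (.leaf 875997048 (-11890462) 120688) (.splitS (.leaf 881971837 (-5824552) 29567) (.leaf 870082604 (-6065910) 30795))) (.splitM (.splitS (.leaf 857700461 (-6317586) 32148) (.leaf 844803726 (-6580644) 33643)) (.splitS (.leaf 857700461 (-6317586) 32148) (.splitM (.leaf 844803726 (-6580644) 33643) (.leaf 844803726 (-6580644) 33643)))))))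

/-- Part of the certificate. -/
def treeAabaaaba : Tree :=
  .splitS (.splitM (.leaf 809573667 (-29227453) 611680) (.leaf 809573667 (-29227453) 611680)) (.splitM (.leaf 745756917 (-34760539) 782921) (.splitS (.leaf 763319197 (-16597777) 182439) (.leaf 728586031 (-18162762) 209812)))

/-- Part of the certificate. -/
def treeAabaaabba : Tree :=
  .splitM (.splitS (.splitM (.leaf 824332031 (-14002249) 144840) (.leaf 824332031 (-14002249) 144840)) (.splitM (.leaf 795121142 (-15225204) 161403) (.splitS (.leaf 802772935 (-7451217) 39209) (.splitM (.leaf 787550049 (-7773987) 41527) (.splitS (.leaf 791447269 (-3845471) 10231) (.leaf 783673590 (-3928516) 10539)))))) (.splitS (.splitM (.splitS (.splitM (.leaf 831368442 (-6856299) 35301) (.leaf 831368442 (-6856299) 35301)) (.splitM (.leaf 817368038 (-7145950) 37145) (.leaf 817368038 (-7145950) 37145))) (.splitS (.splitM (.leaf 831368442 (-6856299) 35301) (.leaf 831368442 (-6856299) 35301)) (.splitM (.leaf 817368038 (-7145950) 37145) (.leaf 817368038 (-7145950) 37145)))) (.splitM (.splitS (.splitM (.leaf 802772935 (-7451217) 39209)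 (.leaf 802772935 (-7451217) 39209)) (.splitM (.splitS (.leaf 791447269 (-3845471) 10231) (.leaf 783673590 (-3928516) 10539)) (.splitS (.leaf 791447269 (-3845471) 10231) (.leaf 783673590 (-3928516) 10539)))) (.splitS (.splitM (.leaf 802772935 (-7451217) 39209) (.leaf 802772935 (-7451217) 39209)) (.splitM (.leaf 787550049 (-7773987) 41527) (.leaf 787550049 (-7773987) 41527)))))

/-- Part of the certificate. -/
def treeAabaaabbba : Tree :=
  .splitS (.splitM (.leaf 763319197 (-16597777) 182439) (.splitS (.splitM (.leaf 771662206 (-8116474) 44145) (.splitS (.splitM (.leaf 775731304 (-4014097) 10866) (.leaf 775731304 (-4014097) 10866)) (.splitM (.leaf 767615178 (-4102378) 11214) (.leaf 767615178 (-4102378) 11214)))) (.splitM (.leaf 755067404 (-8481303) 47120) (.splitS (.splitM (.leaf 759319636 (-4193536) 11585) (.leaf 759319636 (-4193536) 11585)) (.splitM (.leaf 750838730 (-4287767) 11982) (.leaf 750838730 (-4287767) 11982)))))) (.splitM (.splitS (.leaf 737717900 (-8871605) 50524) (.leaf 719559061 (-9291158) 54447)) (.splitS (.splitM (.splitS (.leaf 742166104 (-4385284) 12407)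 (.splitM (.leaf 733294956 (-4486321) 12863) (.leaf 733294956 (-4486321) 12863))) (.splitS (.splitM (.leaf 742166104 (-4385284) 12407) (.leaf 742166104 (-4385284) 12407)) (.splitM (.leaf 733294956 (-4486321) 12863) (.leaf 733294956 (-4486321) 12863)))) (.splitM (.splitS (.splitM (.leaf 724217987 (-4591138) 13353) (.leaf 724217987 (-4591138) 13353)) (.splitM (.leaf 714927357 (-4700020) 13880) (.leaf 714927357 (-4700020) 13880))) (.splitS (.leaf 724217987 (-4591138) 13353) (.leaf 714927357 (-4700020) 13880)))))

/-- Part of the certificate. -/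
def treeAabaaabbbb : Tree :=
  .splitS (.splitM (.splitS (.splitM (.splitS (.leaf 775731304 (-4014097) 10866) (.leaf 767615178 (-4102378) 11214)) (.splitS (.leaf 775731304 (-4014097) 10866) (.leaf 767615178 (-4102378) 11214))) (.splitM (.splitS (.leaf 759319636 (-4193536) 11585) (.leaf 750838730 (-4287767) 11982)) (.splitS (.leaf 759319636 (-4193536) 11585) (.leaf 750838730 (-4287767) 11982)))) (.splitS (.splitM (.leaf 771662206 (-8116474) 44145) (.leaf 771662206 (-8116474) 44145)) (.splitM (.leaf 755067404 (-8481303) 47120) (.leaf 755067404 (-8481303) 47120)))) (.splitM (.splitS (.splitM (.splitS (.leaf 742166104 (-4385284) 12407) (.leaf 733294956 (-4486321) 12863)) (.leaf 737717900 (-8871605) 50524)) (.splitM (.leaf 719559061 (-9291158) 54447) (.leaf 719559061 (-9291158) 54447))) (.splitS (.splitM (.leaf 737717900 (-8871605) 50524) (.leaf 737717900 (-8871605) 50524)) (.leaf 719559061 (-9291158) 54447)))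

/-- Part of the certificate. -/
def treeAabaaabbb : Tree :=
  .splitM treeAabaaabbba treeAabaaabbbb

/-- Part of the certificate. -/
def treeAabaaabb : Tree :=
  .splitS treeAabaaabba treeAabaaabbb

/-- Part of the certificate. -/
def treeAabaaab : Tree :=
  .splitM treeAabaaaba treeAabaaabb

/-- Part of the certificate. -/
def treeAabaaa : Tree :=
  .splitS treeAabaaaa treeAabaaab

/-- Part of the certificate. -/
def treeAabaaba : Tree :=
  .splitM (.splitS (.splitM (.splitS (.splitM (.leaf 919893212 (-10098701) 104219) (.leaf 919893212 (-10098701) 104219)) (.splitM (.splitS (.leaf 904348559 (-5369159) 27426) (.leaf 893387846 (-5592577) 28448)) (.splitS (.leaf 904348559 (-5369159) 27426) (.leaf 893387846 (-5592577) 28448)))) (.splitS (.splitM (.leaf 919893212 (-10098701) 104219) (.leaf 919893212 (-10098701) 104219)) (.splitM (.leaf 898840273 (-10961735) 111716) (.leaf 898840273 (-10961735) 111716)))) (.splitM (.splitS (.splitM (.splitS (.leaf 881971837 (-5824552) 29567) (.leaf 870082604 (-6065910) 30795)) (.splitS (.leaf 881971837 (-5824552) 29567) (.leaf 870082604 (-6065910)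 30795))) (.splitM (.splitS (.leaf 857700461 (-6317586) 32148) (.splitM (.leaf 844803726 (-6580644) 33643) (.leaf 844803726 (-6580644) 33643))) (.splitS (.leaf 857700461 (-6317586) 32148) (.leaf 844803726 (-6580644) 33643)))) (.splitS (.splitM (.leaf 875997048 (-11890462) 120688) (.leaf 875997048 (-11890462) 120688)) (.leaf 851219209 (-12898230) 131540)))) (.splitS (.splitM (.leaf 909258836 (-21060436) 431578) (.leaf 909258836 (-21060436) 431578)) (.splitM (.leaf 863482122 (-24788691) 503991) (.leaf 863482122 (-24788691) 503991)))

/-- Part of the certificate. -/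
def treeAabaabb : Tree :=
  .splitM (.splitS (.splitM (.splitS (.splitM (.splitS (.splitM (.leaf 831368442 (-6856299) 35301) (.leaf 831368442 (-6856299) 35301)) (.splitM (.leaf 817368038 (-7145950) 37145) (.leaf 817368038 (-7145950) 37145))) (.leaf 824332031 (-14002249) 144840)) (.splitM (.splitS (.splitM (.leaf 802772935 (-7451217) 39209) (.leaf 802772935 (-7451217) 39209)) (.leaf 787550049 (-7773987) 41527)) (.leaf 795121142 (-15225204) 161403))) (.splitS (.leaf 824332031 (-14002249) 144840) (.leaf 795121142 (-15225204) 161403))) (.splitM (.splitS (.splitM (.leaf 763319197 (-16597777) 182439) (.leaf 763319197 (-16597777) 182439)) (.splitM (.leaf 728586031 (-18162762) 209812) (.leaf 728586031 (-18162762) 209812))) (.leaf 745756917 (-34760539) 782921))) (.splitS (.splitM (.leaf 809573667 (-29227453) 611680) (.leaf 809573667 (-29227453) 611680)) (.splitM (.leaf 745756917 (-34760539) 782921) (.splitS (.leaf 763319197 (-16597777) 182439) (.splitM (.leaf 728586031 (-18162762) 209812) (.leaf 728586031 (-18162762) 209812)))))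

/-- Part of the certificate. -/
def treeAabaab : Tree :=
  .splitS treeAabaaba treeAabaabb

/-- Part of the certificate. -/
def treeAabaa : Tree :=
  .splitM treeAabaaa treeAabaab

/-- Part of the certificate. -/
def treeAababaaa : Tree :=
  .splitS (.splitM (.leaf 669166520 (-42131824) 1084887) (.splitS (.splitM (.leaf 690477890 (-19982103) 246536) (.leaf 690477890 (-19982103) 246536)) (.splitM (.leaf 648397311 (-22149721) 297780) (.leaf 648397311 (-22149721) 297780)))) (.splitM (.splitS (.leaf 601506171 (-24816759) 373120) (.leaf 548561886 (-28246635) 492228)) (.splitS (.leaf 601506171 (-24816759) 373120) (.leaf 548561886 (-28246635) 492228)))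

/-- Part of the certificate. -/
def treeAababaab : Tree :=
  .splitS (.splitM (.splitS (.splitM (.splitS (.leaf 700527893 (-9744570) 59006) (.splitM (.leaf 680551142 (-10237533) 64358) (.leaf 680551142 (-10237533) 64358))) (.splitS (.splitM (.splitS (.splitM (.leaf 705414621 (-4813285) 14449) (.leaf 705414621 (-4813285) 14449)) (.leaf 695670667 (-4931286) 15065)) (.leaf 700527893 (-9744570) 59006)) (.splitM (.leaf 680551142 (-10237533) 64358) (.leaf 680551142 (-10237533) 64358)))) (.splitM (.splitS (.splitM (.leaf 659542788 (-10777171) 70707) (.leaf 659542788 (-10777171) 70707)) (.leaf 637400697 (-11372551) 78337)) (.splitS (.splitM (.leaf 659542788 (-10777171) 70707) (.leaf 659542788 (-10777171) 70707)) (.leaf 637400697 (-11372551) 78337)))) (.splitS (.splitM (.splitS (.splitM (.leaf 700527893 (-9744570) 59006) (.leaf 700527893 (-9744570) 59006)) (.leaf 680551142 (-10237533) 64358)) (.leaf 690477890 (-19982103) 246536)) (.splitM (.splitS (.leaf 659542788 (-10777171) 70707) (.leaf 637400697 (-11372551) 78337)) (.leaf 648397311 (-22149721) 297780)))) (.splitM (.splitS (.splitM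 (.splitS (.leaf 614002031 (-12035421) 87642) (.leaf 589196819 (-12781338) 99189)) (.splitS (.leaf 614002031 (-12035421) 87642) (.leaf 589196819 (-12781338) 99189))) (.splitM (.leaf 548561886 (-28246635) 492228) (.leaf 548561886 (-28246635) 492228))) (.splitS (.splitM (.leaf 601506171 (-24816759) 373120) (.leaf 601506171 (-24816759) 373120)) (.leaf 548561886 (-28246635) 492228)))

/-- Part of the certificate. -/
def treeAababaa : Tree :=
  .splitM treeAababaaa treeAababaab

/-- Part of the certificate. -/
def treeAababab : Tree :=
  .splitM (.splitS (.splitM (.splitS (.leaf 487571421 (-32953542) 701940) (.leaf 414923957 (-40134801) 1142818)) (.splitS (.leaf 487571421 (-32953542) 701940) (.leaf 414923957 (-40134801) 1142818))) (.splitM (.splitS (.leaf 322455866 (-53658147) 2467674) (.splitM (.splitS (.leaf 229414958 (-38630213) 1715126) (.leaf 118307902 (-94534811) 23773091)) (.splitS (.leaf 229414958 (-38630213) 1715126) (.leaf 118307902 (-94534811) 23773091)))) (.splitS (.leaf 322455866 (-53658147) 2467674) (.splitM (.splitS (.leaf 229414958 (-38630213) 1715126) (.leaf 118307902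 (-94534811) 23773091)) (.splitS (.leaf 229414958 (-38630213) 1715126) (.splitM (.leaf 118307902 (-94534811) 23773091) (.leaf 118307902 (-94534811) 23773091))))))) (.splitS (.splitM (.splitS (.leaf 487571421 (-32953542) 701940) (.leaf 414923957 (-40134801) 1142818)) (.splitS (.leaf 487571421 (-32953542) 701940) (.splitM (.leaf 414923957 (-40134801) 1142818) (.leaf 414923957 (-40134801) 1142818)))) (.splitM (.splitS (.leaf 322455866 (-53658147) 2467674) (.splitM (.splitS (.leaf 229414958 (-38630213) 1715126) (.splitM (.splitS (.leaf 162714949 (-27557148) 1202477) (.leaf 83771297 (-66977663) 16793634)) (.leaf 118307902 (-94534811) 23773091))) (.splitS (.leaf 229414958 (-38630213) 1715126) (.leaf 118307902 (-94534811) 23773091)))) (.splitS (.splitM (.leaf 322455866 (-53658147) 2467674) (.leaf 322455866 (-53658147) 2467674)) (.leaf 166851563 (-133165023) 33686540))))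

/-- Part of the certificate. -/
def treeAababa : Tree :=
  .splitS treeAababaa treeAababab

/-- Part of the certificate. -/
def treeAababbaa : Tree :=
  .splitS (.splitM (.splitS (.leaf 690477890 (-19982103) 246536) (.leaf 648397311 (-22149721) 297780)) (.splitS (.leaf 690477890 (-19982103) 246536) (.leaf 648397311 (-22149721) 297780))) (.splitM (.splitS (.leaf 601506171 (-24816759) 373120) (.splitM (.leaf 548561886 (-28246635) 492228) (.leaf 548561886 (-28246635) 492228))) (.splitS (.splitM (.leaf 601506171 (-24816759) 373120) (.splitS (.leaf 614002031 (-12035421) 87642) (.splitM (.leaf 589196819 (-12781338) 99189) (.splitS (.leaf 595611475 (-6291495) 24002) (.leaf 582831751 (-6489843) 25616))))) (.splitM (.splitS (.leaf 562798693 (-13631419) 113819) (.splitM (.leaf 534571072 (-14615217) 132833) (.leaf 534571072 (-14615217) 132833))) (.splitS (.splitM (.splitS (.leaf 569641820 (-6701910) 27437) (.leaf 556012469 (-6929509) 29505)) (.leaf 562798693 (-13631419) 113819)) (.leaf 534571072 (-14615217) 132833)))))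

/-- Part of the certificate. -/
def treeAababbabaa : Tree :=
  .splitS (.splitM (.leaf 690477890 (-19982103) 246536) (.leaf 690477890 (-19982103) 246536)) (.splitM (.splitS (.leaf 659542788 (-10777171) 70707) (.leaf 637400697 (-11372551) 78337)) (.splitS (.splitM (.leaf 659542788 (-10777171) 70707) (.splitS (.leaf 664948615 (-5317887) 17250) (.leaf 654172311 (-5459284) 18116))) (.splitM (.splitS (.leaf 643106031 (-5607948) 19068) (.splitM (.leaf 631734528 (-5764603) 20116) (.splitS (.leaf 634621789 (-2862189) 4963) (.leaf 628857324 (-2902414) 5101)))) (.splitS (.splitM (.splitS (.leaf 645914708 (-2784910) 4707) (.leaf 640306885 (-2823038) 4832)) (.leaf 643106031 (-5607948) 19068)) (.leaf 631734528 (-5764603) 20116)))))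

/-- Part of the certificate. -/
def treeAababbabab : Tree :=
  .splitS (.splitM (.splitS (.leaf 700527893 (-9744570) 59006) (.splitM (.leaf 680551142 (-10237533) 64358) (.splitS (.leaf 685685633 (-5054416) 15732) (.splitM (.leaf 675448827 (-5183117) 16458) (.leaf 675448827 (-5183117) 16458))))) (.splitS (.splitM (.leaf 700527893 (-9744570) 59006) (.splitS (.leaf 705414621 (-4813285) 14449) (.leaf 695670667 (-4931286) 15065))) (.splitM (.splitS (.splitM (.leaf 685685633 (-5054416) 15732) (.leaf 685685633 (-5054416) 15732)) (.leaf 675448827 (-5183117) 16458)) (.leaf 680551142 (-10237533) 64358)))) (.splitM (.splitS (.splitM (.splitS (.splitM (.leaf 664948615 (-5317887) 17250) (.leaf 664948615 (-5317887) 17250)) (.splitM (.splitS (.leaf 656906425 (-2711529) 4475) (.leaf 651447254 (-2747755) 4588)) (.leaf 654172311 (-5459284) 18116))) (.splitS (.leaf 664948615 (-5317887) 17250) (.leaf 654172311 (-5459284) 18116))) (.leaf 637400697 (-11372551) 78337)) (.leaf 648397311 (-22149721) 297780))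

/-- Part of the certificate. -/
def treeAababbaba : Tree :=
  .splitM treeAababbabaa treeAababbabab

/-- Part of the certificate. -/
def treeAababbabb : Tree :=
  .splitM (.splitS (.splitM (.splitS (.splitM (.splitS (.leaf 620041005 (-5930081) 21276) (.leaf 608006872 (-6105341) 22564)) (.splitS (.splitM (.leaf 620041005 (-5930081) 21276) (.leaf 620041005 (-5930081) 21276)) (.splitM (.leaf 608006872 (-6105341) 22564) (.leaf 608006872 (-6105341) 22564)))) (.splitM (.splitS (.splitM (.leaf 595611475 (-6291495) 24002) (.leaf 595611475 (-6291495) 24002)) (.leaf 582831751 (-6489843) 25616)) (.leaf 589196819 (-12781338) 99189))) (.splitS (.splitM (.splitS (.leaf 620041005 (-5930081) 21276) (.leaf 608006872 (-6105341) 22564)) (.leaf 614002031 (-12035421) 87642)) (.leaf 589196819 (-12781338) 99189))) (.leaf 548561886 (-28246635) 492228)) (.leaf 574605019 (-53063394) 1718603)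

/-- Part of the certificate. -/
def treeAababbab : Tree :=
  .splitS treeAababbaba treeAababbabb

/-- Part of the certificate. -/
def treeAababba : Tree :=
  .splitM treeAababbaa treeAababbab

/-- Part of the certificate. -/
def treeAababbb : Tree :=
  .splitM (.splitS (.splitM (.splitS (.splitM (.leaf 487571421 (-32953542) 701940) (.splitS (.leaf 504205717 (-15775636) 158330) (.leaf 471287770 (-17177906) 193925))) (.splitM (.leaf 414923957 (-40134801) 1142818) (.leaf 414923957 (-40134801) 1142818))) (.splitS (.splitM (.splitS (.leaf 504205717 (-15775636) 158330) (.leaf 471287770 (-17177906) 193925)) (.leaf 487571421 (-32953542) 701940)) (.leaf 414923957 (-40134801) 1142818))) (.splitM (.splitS (.leaf 322455866 (-53658147) 2467674) (.leaf 166851563 (-133165023) 33686540)) (.leaf 234652941 (-186823170) 47829771))) (.splitS (.leaf 450349083 (-73088342) 3614402) (.leaf 234652941 (-186823170) 47829771))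

/-- Part of the certificate. -/
def treeAababb : Tree :=
  .splitS treeAababba treeAababbb

/-- Part of the certificate. -/
def treeAabab : Tree :=
  .splitM treeAababa treeAababb

/-- Part of the certificate. -/
def treeAaba : Tree :=
  .splitS treeAabaa treeAabab

/-- Part of the certificate. -/
def treeAabbaa : Tree :=
  .splitS (.splitM (.splitS (.leaf 909258836 (-21060436) 431578) (.leaf 863482122 (-24788691) 503991)) (.splitS (.leaf 909258836 (-21060436) 431578) (.splitM (.leaf 863482122 (-24788691) 503991) (.leaf 863482122 (-24788691) 503991)))) (.splitM (.splitS (.splitM (.leaf 809573667 (-29227453) 611680) (.splitS (.leaf 824332031 (-14002249) 144840) (.leaf 795121142 (-15225204) 161403))) (.splitM (.splitS (.splitM (.leaf 763319197 (-16597777) 182439) (.leaf 763319197 (-16597777) 182439)) (.splitM (.splitS (.leaf 737717900 (-8871605) 50524) (.splitM (.leaf 719559061 (-9291158) 54447) (.leaf 719559061 (-9291158) 54447))) (.splitS (.splitM (.leaf 737717900 (-8871605) 50524) (.leaf 737717900 (-8871605) 50524)) (.leaf 719559061 (-9291158) 54447)))) (.splitS (.splitM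 (.splitS (.leaf 771662206 (-8116474) 44145) (.leaf 755067404 (-8481303) 47120)) (.leaf 763319197 (-16597777) 182439)) (.leaf 728586031 (-18162762) 209812)))) (.splitS (.splitM (.splitS (.leaf 824332031 (-14002249) 144840) (.splitM (.leaf 795121142 (-15225204) 161403) (.leaf 795121142 (-15225204) 161403))) (.splitS (.leaf 824332031 (-14002249) 144840) (.leaf 795121142 (-15225204) 161403))) (.leaf 745756917 (-34760539) 782921)))

/-- Part of the certificate. -/
def treeAabbab : Tree :=
  .splitS (.splitM (.splitS (.leaf 909258836 (-21060436) 431578) (.splitM (.leaf 863482122 (-24788691) 503991) (.leaf 863482122 (-24788691) 503991))) (.splitS (.splitM (.leaf 909258836 (-21060436) 431578) (.leaf 909258836 (-21060436) 431578)) (.leaf 863482122 (-24788691) 503991))) (.leaf 776972685 (-63987992) 2771237)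

/-- Part of the certificate. -/
def treeAabba : Tree :=
  .splitM treeAabbaa treeAabbab

/-- Part of the certificate. -/
def treeAabbb : Tree :=
  .splitM (.splitS (.splitM (.splitS (.splitM (.splitS (.splitM (.splitS (.splitM (.leaf 700527893 (-9744570) 59006) (.leaf 700527893 (-9744570) 59006)) (.leaf 680551142 (-10237533) 64358)) (.leaf 690477890 (-19982103) 246536)) (.leaf 648397311 (-22149721) 297780)) (.leaf 669166520 (-42131824) 1084887)) (.leaf 574605019 (-53063394) 1718603)) (.leaf 620516286 (-95195217) 5498046)) (.leaf 328103061 (-259911512) 68191549)) (.leaf 453180062 (-355106729) 98073333)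

/-- Part of the certificate. -/
def treeAabb : Tree :=
  .splitS treeAabba treeAabbb

/-- Part of the certificate. -/
def treeAab : Tree :=
  .splitM treeAaba treeAabb

/-- Part of the certificate. -/
def treeAa : Tree :=
  .splitS treeAaa treeAab

/-- Part of the certificate. -/
def treeAba : Tree :=
  .splitM (.splitS (.splitM (.splitS (.leaf 1070586818 (-4210818) 1055814) (.leaf 1053590895 (-12837070) 1107778)) (.splitS (.leaf 1070586818 (-4210818) 1055814) (.leaf 1053590895 (-12837070) 1107778))) (.splitM (.splitS (.splitM (.leaf 1018741199 (-22130370) 1225521) (.leaf 1018741199 (-22130370) 1225521)) (.splitM (.splitS (.leaf 980800675 (-14928448) 343814) (.leaf 948088716 (-17820360) 380662)) (.splitS (.leaf 980800675 (-14928448) 343814) (.leaf 948088716 (-17820360) 380662)))) (.splitS (.splitM (.leaf 1018741199 (-22130370) 1225521) (.leaf 1018741199 (-22130370) 1225521)) (.splitM (.splitS (.leaf 980800675 (-14928448) 343814) (.leaf 948088716 (-17820360) 380662)) (.leaf 964082877 (-32748808) 1446376))))) (.splitS (.splitM (.splitS (.leaf 1070586818 (-4210818) 1055814)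 (.leaf 1053590895 (-12837070) 1107778)) (.splitS (.leaf 1070586818 (-4210818) 1055814) (.leaf 1053590895 (-12837070) 1107778))) (.splitM (.splitS (.splitM (.leaf 1018741199 (-22130370) 1225521) (.leaf 1018741199 (-22130370) 1225521)) (.leaf 964082877 (-32748808) 1446376)) (.splitS (.splitM (.leaf 1018741199 (-22130370) 1225521) (.leaf 1018741199 (-22130370) 1225521)) (.leaf 964082877 (-32748808) 1446376))))

/-- Part of the certificate. -/
def treeAbb : Tree :=
  .splitM (.splitS (.splitM (.splitS (.splitM (.splitS (.leaf 909258836 (-21060436) 431578) (.leaf 863482122 (-24788691) 503991)) (.leaf 885903945 (-45849127) 1865378)) (.leaf 776972685 (-63987992) 2771237)) (.leaf 829159715 (-109837119) 9109140)) (.leaf 453180062 (-355106729) 98073333)) (.splitS (.leaf 829159715 (-109837119) 9109140) (.leaf 453180062 (-355106729) 98073333))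

/-- Part of the certificate. -/
def treeAb : Tree :=
  .splitS treeAba treeAbb

/-- Part of the certificate. -/
def treeA : Tree :=
  .splitM treeAa treeAb

/-- Part of the certificate. -/
def treeBaaaa : Tree :=
  .splitM (.splitS (.leaf 1070586818 (-4210818) 1055814) (.leaf 1053590895 (-12837070) 1107778)) (.splitS (.splitM (.leaf 1070586818 (-4210818) 1055814) (.splitS (.splitM (.leaf 1072954816 (-1049603) 262597) (.splitS (.leaf 1073545181 (-262209) 65568) (.leaf 1072495771 (-787394) 65760))) (.splitM (.leaf 1068747113 (-3161215) 265711) (.splitS (.leaf 1070393864 (-1314901) 66148) (.splitM (.leaf 1067233239 (-1846315) 66738) (.leaf 1067233239 (-1846315) 66738)))))) (.splitM (.splitS (.leaf 1060281512 (-5310802) 272127) (.splitM (.leaf 1047454565 (-7526268) 282249) (.leaf 1047454565 (-7526268) 282249))) (.splitS (.splitM (.splitS (.leaf 1063004445 (-2383279) 67537) (.leaf 1057694666 (-2927523) 68559)) (.splitS (.splitM (.leaf 1063004445 (-2383279) 67537) (.splitS (.leaf 1064212912 (-1124106) 16831) (.leaf 1061829747 (-1259173) 16944))) (.splitM (.leaf 1057694666 (-2927523)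 68559) (.leaf 1057694666 (-2927523) 68559)))) (.splitM (.splitS (.leaf 1051287513 (-3480892) 69821) (.splitM (.leaf 1043762766 (-4045377) 71342) (.leaf 1043762766 (-4045377) 71342))) (.splitS (.splitM (.leaf 1051287513 (-3480892) 69821) (.leaf 1051287513 (-3480892) 69821)) (.splitM (.leaf 1043762766 (-4045377) 71342) (.leaf 1043762766 (-4045377) 71342)))))))

/-- Part of the certificate. -/
def treeBaaaba : Tree :=
  .splitS (.splitM (.leaf 1018741199 (-22130370) 1225521) (.leaf 1018741199 (-22130370) 1225521)) (.splitM (.leaf 964082877 (-32748808) 1446376) (.splitS (.leaf 980800675 (-14928448) 343814) (.splitM (.leaf 948088716 (-17820360) 380662) (.splitS (.leaf 957091391 (-8529555) 92532) (.leaf 939276398 (-9290805) 97899)))))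

/-- Part of the certificate. -/
def treeBaaabba : Tree :=
  .splitM (.splitS (.splitM (.leaf 1030102994 (-9839812) 296758) (.splitS (.leaf 1035096039 (-4623158) 73149) (.leaf 1025258353 (-5216654) 75275))) (.splitM (.leaf 1007992590 (-12290558) 316723) (.splitS (.leaf 1014215615 (-5828571) 77761) (.splitM (.leaf 1001927953 (-6461987) 80657) (.leaf 1001927953 (-6461987) 80657))))) (.splitS (.splitM (.splitS (.splitM (.leaf 1035096039 (-4623158) 73149) (.leaf 1035096039 (-4623158) 73149)) (.splitM (.leaf 1025258353 (-5216654) 75275) (.leaf 1025258353 (-5216654) 75275))) (.splitS (.splitM (.leaf 1035096039 (-4623158) 73149) (.leaf 1035096039 (-4623158) 73149)) (.leaf 1025258353 (-5216654) 75275))) (.splitM (.splitS (.splitM (.leaf 1014215615 (-5828571) 77761) (.leaf 1014215615 (-5828571) 77761)) (.splitM (.splitS (.leaf 1005178915 (-3150341) 19973) (.leaf 998717318 (-3311646) 20363)) (.leaf 1001927953 (-6461987) 80657))) (.splitS (.leaf 1014215615 (-5828571) 77761) (.leaf 1001927953 (-6461987) 80657))))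

/-- Part of the certificate. -/
def treeBaaabbb : Tree :=
  .splitM (.splitS (.splitM (.splitS (.leaf 988348902 (-7120434) 84027) (.leaf 973424380 (-7808014) 87952)) (.splitS (.splitM (.leaf 988348902 (-7120434) 84027) (.leaf 988348902 (-7120434) 84027)) (.splitM (.leaf 973424380 (-7808014) 87952) (.splitS (.leaf 977350110 (-3816060) 21728) (.leaf 969542625 (-3991954) 22257))))) (.splitM (.splitS (.splitM (.leaf 957091391 (-8529555) 92532) (.leaf 957091391 (-8529555) 92532)) (.splitM (.leaf 939276398 (-9290805) 97899) (.leaf 939276398 (-9290805) 97899))) (.splitS (.splitM (.splitS (.leaf 961378993 (-4172250) 22829) (.leaf 952850056 (-4357305) 23447)) (.splitS (.leaf 961378993 (-4172250) 22829) (.leaf 952850056 (-4357305) 23447))) (.splitM (.splitS (.leaf 943945911 (-4547510) 24117) (.leaf 934655833 (-4743296) 24844)) (.leaf 939276398 (-9290805) 97899))))) (.splitS (.splitM (.splitS (.splitM (.leaf 988348902 (-7120434) 84027) (.leaf 988348902 (-7120434) 84027)) (.splitM (.leaf 973424380 (-7808014) 87952) (.leaf 973424380 (-7808014) 87952))) (.leaf 980800675 (-14928448) 343814))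 (.splitM (.splitS (.leaf 957091391 (-8529555) 92532) (.leaf 939276398 (-9290805) 97899)) (.leaf 948088716 (-17820360) 380662)))

/-- Part of the certificate. -/
def treeBaaabb : Tree :=
  .splitS treeBaaabba treeBaaabbb

/-- Part of the certificate. -/
def treeBaaab : Tree :=
  .splitM treeBaaaba treeBaaabb

/-- Part of the certificate. -/
def treeBaaa : Tree :=
  .splitS treeBaaaa treeBaaab

/-- Part of the certificate. -/
def treeBaaba : Tree :=
  .splitM (.splitS (.splitM (.splitS (.splitM (.splitS (.splitM (.leaf 1073545181 (-262209) 65568) (.splitS (.splitM (.leaf 1073692670 (-65541) 16389) (.leaf 1073692670 (-65541) 16389)) (.leaf 1073430474 (-196668) 16401))) (.splitM (.leaf 1072495771 (-787394) 65760) (.leaf 1072495771 (-787394) 65760))) (.splitS (.splitM (.leaf 1073545181 (-262209) 65568) (.leaf 1073545181 (-262209) 65568)) (.leaf 1072495771 (-787394) 65760))) (.splitM (.splitS (.splitM (.splitS (.leaf 1071067821 (-591306) 16510) (.leaf 1069752982 (-723595) 16571)) (.leaf 1070393864 (-1314901) 66148)) (.splitM (.leaf 1067233239 (-1846315) 66738) (.leaf 1067233239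 (-1846315) 66738))) (.splitS (.leaf 1070393864 (-1314901) 66148) (.leaf 1067233239 (-1846315) 66738)))) (.splitS (.splitM (.leaf 1072954816 (-1049603) 262597) (.leaf 1072954816 (-1049603) 262597)) (.splitM (.leaf 1068747113 (-3161215) 265711) (.leaf 1068747113 (-3161215) 265711)))) (.splitM (.splitS (.splitM (.splitS (.leaf 1063004445 (-2383279) 67537) (.leaf 1057694666 (-2927523) 68559)) (.leaf 1060281512 (-5310802) 272127)) (.splitM (.leaf 1047454565 (-7526268) 282249) (.leaf 1047454565 (-7526268) 282249))) (.splitS (.leaf 1060281512 (-5310802) 272127) (.leaf 1047454565 (-7526268) 282249)))) (.splitS (.splitM (.splitS (.leaf 1072954816 (-1049603) 262597) (.leaf 1068747113 (-3161215) 265711)) (.leaf 1070586818 (-4210818) 1055814)) (.splitM (.leaf 1053590895 (-12837070) 1107778) (.leaf 1053590895 (-12837070) 1107778)))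

/-- Part of the certificate. -/
def treeBaabb : Tree :=
  .splitM (.splitS (.splitM (.splitS (.splitM (.leaf 1030102994 (-9839812) 296758) (.leaf 1030102994 (-9839812) 296758)) (.splitM (.leaf 1007992590 (-12290558) 316723) (.leaf 1007992590 (-12290558) 316723))) (.splitS (.leaf 1030102994 (-9839812) 296758) (.leaf 1007992590 (-12290558) 316723))) (.splitM (.splitS (.leaf 980800675 (-14928448) 343814) (.leaf 948088716 (-17820360) 380662)) (.splitS (.leaf 980800675 (-14928448) 343814) (.leaf 948088716 (-17820360) 380662)))) (.splitS (.splitM (.leaf 1018741199 (-22130370) 1225521) (.leaf 1018741199 (-22130370) 1225521)) (.splitM (.splitS (.leaf 980800675 (-14928448) 343814) (.leaf 948088716 (-17820360) 380662)) (.splitS (.leaf 980800675 (-14928448) 343814) (.leaf 948088716 (-17820360) 380662))))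

/-- Part of the certificate. -/
def treeBaab : Tree :=
  .splitS treeBaaba treeBaabb

/-- Part of the certificate. -/
def treeBaa : Tree :=
  .splitM treeBaaa treeBaab

/-- Part of the certificate. -/
def treeBabaaaa : Tree :=
  .splitM (.splitS (.leaf 909258836 (-21060436) 431578) (.leaf 863482122 (-24788691) 503991)) (.splitS (.splitM (.leaf 909258836 (-21060436) 431578) (.splitS (.splitM (.leaf 919893212 (-10098701) 104219) (.leaf 919893212 (-10098701) 104219)) (.splitM (.leaf 898840273 (-10961735) 111716) (.leaf 898840273 (-10961735) 111716)))) (.splitM (.splitS (.leaf 875997048 (-11890462) 120688) (.leaf 851219209 (-12898230) 131540)) (.splitS (.splitM (.leaf 875997048 (-11890462) 120688) (.splitS (.leaf 881971837 (-5824552) 29567) (.leaf 870082604 (-6065910) 30795))) (.splitM (.splitS (.leaf 857700461 (-6317586) 32148) (.leaf 844803726 (-6580644) 33643)) (.splitS (.leaf 857700461 (-6317586) 32148) (.splitM (.leaf 844803726 (-6580644) 33643) (.leaf 844803726 (-6580644) 33643)))))))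

/-- Part of the certificate. -/
def treeBabaaaba : Tree :=
  .splitS (.splitM (.leaf 809573667 (-29227453) 611680) (.leaf 809573667 (-29227453) 611680)) (.splitM (.leaf 745756917 (-34760539) 782921) (.splitS (.leaf 763319197 (-16597777) 182439) (.leaf 728586031 (-18162762) 209812)))

/-- Part of the certificate. -/
def treeBabaaabb : Tree :=
  .splitS (.splitM (.splitS (.splitM (.leaf 824332031 (-14002249) 144840) (.leaf 824332031 (-14002249) 144840)) (.splitM (.leaf 795121142 (-15225204) 161403) (.splitS (.leaf 802772935 (-7451217) 39209) (.leaf 787550049 (-7773987) 41527)))) (.splitS (.splitM (.splitS (.leaf 831368442 (-6856299) 35301) (.leaf 817368038 (-7145950) 37145)) (.splitS (.splitM (.leaf 831368442 (-6856299) 35301) (.leaf 831368442 (-6856299) 35301)) (.leaf 817368038 (-7145950) 37145))) (.splitM (.splitS (.leaf 802772935 (-7451217) 39209) (.leaf 787550049 (-7773987) 41527)) (.splitS (.leaf 802772935 (-7451217) 39209) (.leaf 787550049 (-7773987) 41527))))) (.splitM (.splitS (.splitM (.leaf 763319197 (-16597777) 182439) (.splitS (.leaf 771662206 (-8116474) 44145)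 (.leaf 755067404 (-8481303) 47120))) (.splitM (.leaf 728586031 (-18162762) 209812) (.splitS (.leaf 737717900 (-8871605) 50524) (.leaf 719559061 (-9291158) 54447)))) (.splitS (.splitM (.splitS (.leaf 771662206 (-8116474) 44145) (.leaf 755067404 (-8481303) 47120)) (.splitS (.leaf 771662206 (-8116474) 44145) (.leaf 755067404 (-8481303) 47120))) (.splitM (.splitS (.leaf 737717900 (-8871605) 50524) (.leaf 719559061 (-9291158) 54447)) (.splitS (.leaf 737717900 (-8871605) 50524) (.leaf 719559061 (-9291158) 54447)))))

/-- Part of the certificate. -/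
def treeBabaaab : Tree :=
  .splitM treeBabaaaba treeBabaaabb

/-- Part of the certificate. -/
def treeBabaaa : Tree :=
  .splitS treeBabaaaa treeBabaaab

/-- Part of the certificate. -/
def treeBabaabaaa : Tree :=
  .splitM (.splitS (.splitM (.leaf 919893212 (-10098701) 104219) (.splitS (.leaf 924968188 (-4945138) 25632) (.leaf 914870345 (-5153564) 26490))) (.splitM (.splitS (.leaf 904348559 (-5369159) 27426) (.leaf 893387846 (-5592577) 28448)) (.splitS (.splitM (.leaf 904348559 (-5369159) 27426) (.leaf 904348559 (-5369159) 27426)) (.splitM (.leaf 893387846 (-5592577) 28448) (.leaf 893387846 (-5592577) 28448))))) (.splitS (.splitM (.splitS (.splitM (.leaf 924968188 (-4945138) 25632) (.leaf 924968188 (-4945138) 25632)) (.splitM (.leaf 914870345 (-5153564) 26490) (.leaf 914870345 (-5153564) 26490))) (.leaf 919893212 (-10098701) 104219)) (.splitM (.splitS (.leaf 904348559 (-5369159) 27426) (.leaf 893387846 (-5592577) 28448)) (.leaf 898840273 (-10961735) 111716)))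

/-- Part of the certificate. -/
def treeBabaabaab : Tree :=
  .splitM (.splitS (.splitM (.splitS (.leaf 881971837 (-5824552) 29567) (.splitM (.leaf 870082604 (-6065910) 30795) (.leaf 870082604 (-6065910) 30795))) (.splitS (.splitM (.leaf 881971837 (-5824552) 29567) (.leaf 881971837 (-5824552) 29567)) (.splitM (.leaf 870082604 (-6065910) 30795) (.leaf 870082604 (-6065910) 30795)))) (.splitM (.splitS (.splitM (.leaf 857700461 (-6317586) 32148) (.leaf 857700461 (-6317586) 32148)) (.splitM (.leaf 844803726 (-6580644) 33643) (.leaf 844803726 (-6580644) 33643))) (.splitS (.splitM (.leaf 857700461 (-6317586) 32148) (.leaf 857700461 (-6317586) 32148)) (.leaf 844803726 (-6580644) 33643)))) (.splitS (.splitM (.leaf 875997048 (-11890462) 120688) (.leaf 875997048 (-11890462) 120688)) (.leaf 851219209 (-12898230) 131540))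

/-- Part of the certificate. -/
def treeBabaabaa : Tree :=
  .splitS treeBabaabaaa treeBabaabaab

/-- Part of the certificate. -/
def treeBabaabab : Tree :=
  .splitS (.splitM (.leaf 909258836 (-21060436) 431578) (.leaf 909258836 (-21060436) 431578)) (.splitM (.leaf 863482122 (-24788691) 503991) (.leaf 863482122 (-24788691) 503991))

/-- Part of the certificate. -/
def treeBabaaba : Tree :=
  .splitM treeBabaabaa treeBabaabab

/-- Part of the certificate. -/
def treeBabaabb : Tree :=
  .splitM (.splitS (.splitM (.splitS (.splitM (.splitS (.splitM (.leaf 831368442 (-6856299) 35301) (.leaf 831368442 (-6856299) 35301)) (.splitM (.leaf 817368038 (-7145950) 37145) (.leaf 817368038 (-7145950) 37145))) (.leaf 824332031 (-14002249) 144840)) (.splitM (.splitS (.splitM (.leaf 802772935 (-7451217) 39209) (.leaf 802772935 (-7451217) 39209)) (.leaf 787550049 (-7773987) 41527)) (.leaf 795121142 (-15225204) 161403))) (.splitS (.leaf 824332031 (-14002249) 144840) (.leaf 795121142 (-15225204) 161403))) (.splitM (.splitS (.splitM (.leaf 763319197 (-16597777) 182439) (.leaf 763319197 (-16597777)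 182439)) (.leaf 728586031 (-18162762) 209812)) (.leaf 745756917 (-34760539) 782921))) (.splitS (.splitM (.leaf 809573667 (-29227453) 611680) (.leaf 809573667 (-29227453) 611680)) (.splitM (.leaf 745756917 (-34760539) 782921) (.splitS (.leaf 763319197 (-16597777) 182439) (.splitM (.leaf 728586031 (-18162762) 209812) (.splitS (.leaf 737717900 (-8871605) 50524) (.leaf 719559061 (-9291158) 54447))))))

/-- Part of the certificate. -/
def treeBabaab : Tree :=
  .splitS treeBabaaba treeBabaabb

/-- Part of the certificate. -/
def treeBabaa : Tree :=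
  .splitM treeBabaaa treeBabaab

/-- Part of the certificate. -/
def treeBababaa : Tree :=
  .splitM (.splitS (.splitM (.leaf 669166520 (-42131824) 1084887) (.splitS (.leaf 690477890 (-19982103) 246536) (.leaf 648397311 (-22149721) 297780))) (.splitM (.leaf 574605019 (-53063394) 1718603) (.splitS (.leaf 601506171 (-24816759) 373120) (.leaf 548561886 (-28246635) 492228)))) (.splitS (.splitM (.splitS (.splitM (.leaf 690477890 (-19982103) 246536) (.splitS (.leaf 700527893 (-9744570) 59006) (.leaf 680551142 (-10237533) 64358))) (.splitM (.leaf 648397311 (-22149721) 297780) (.leaf 648397311 (-22149721) 297780))) (.splitS (.splitM (.splitS (.leaf 700527893 (-9744570) 59006) (.leaf 680551142 (-10237533) 64358)) (.leaf 690477890 (-19982103) 246536)) (.splitM (.leaf 648397311 (-22149721) 297780) (.leaf 648397311 (-22149721) 297780)))) (.splitM (.splitS (.splitM (.leaf 601506171 (-24816759) 373120) (.leaf 601506171 (-24816759) 373120)) (.leaf 548561886 (-28246635) 492228)) (.splitS (.leaf 601506171 (-24816759) 373120) (.leaf 548561886 (-28246635) 492228))))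

/-- Part of the certificate. -/
def treeBababab : Tree :=
  .splitM (.splitS (.splitM (.leaf 450349083 (-73088342) 3614402) (.splitS (.leaf 487571421 (-32953542) 701940) (.leaf 414923957 (-40134801) 1142818))) (.splitM (.splitS (.leaf 322455866 (-53658147) 2467674) (.splitM (.splitS (.leaf 229414958 (-38630213) 1715126) (.leaf 118307902 (-94534811) 23773091)) (.splitS (.leaf 229414958 (-38630213) 1715126) (.leaf 118307902 (-94534811) 23773091)))) (.splitS (.leaf 322455866 (-53658147) 2467674) (.splitM (.splitS (.leaf 229414958 (-38630213) 1715126) (.leaf 118307902 (-94534811) 23773091)) (.splitS (.leaf 229414958 (-38630213) 1715126) (.leaf 118307902 (-94534811) 23773091)))))) (.splitS (.splitM (.splitS (.leaf 487571421 (-32953542) 701940) (.leaf 414923957 (-40134801) 1142818)) (.splitS (.leaf 487571421 (-32953542) 701940) (.leaf 414923957 (-40134801) 1142818))) (.splitM (.splitS (.leaf 322455866 (-53658147) 2467674) (.splitM (.splitS (.leaf 229414958 (-38630213) 1715126) (.splitM (.leaf 118307902 (-94534811) 23773091) (.leaf 118307902 (-94534811) 23773091))) (.splitS (.leaf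 229414958 (-38630213) 1715126) (.leaf 118307902 (-94534811) 23773091)))) (.splitS (.leaf 322455866 (-53658147) 2467674) (.leaf 166851563 (-133165023) 33686540))))

/-- Part of the certificate. -/
def treeBababa : Tree :=
  .splitS treeBababaa treeBababab

/-- Part of the certificate. -/
def treeBababbaa : Tree :=
  .splitS (.splitM (.splitS (.leaf 690477890 (-19982103) 246536) (.leaf 648397311 (-22149721) 297780)) (.splitS (.leaf 690477890 (-19982103) 246536) (.leaf 648397311 (-22149721) 297780))) (.splitM (.splitS (.leaf 601506171 (-24816759) 373120) (.leaf 548561886 (-28246635) 492228)) (.splitS (.splitM (.leaf 601506171 (-24816759) 373120) (.splitS (.leaf 614002031 (-12035421) 87642) (.leaf 589196819 (-12781338) 99189))) (.splitM (.leaf 548561886 (-28246635) 492228) (.splitS (.leaf 562798693 (-13631419) 113819) (.leaf 534571072 (-14615217) 132833)))))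

/-- Part of the certificate. -/
def treeBababbab : Tree :=
  .splitS (.splitM (.splitS (.splitM (.leaf 690477890 (-19982103) 246536) (.leaf 690477890 (-19982103) 246536)) (.splitM (.splitS (.leaf 659542788 (-10777171) 70707) (.leaf 637400697 (-11372551) 78337)) (.splitS (.splitM (.leaf 659542788 (-10777171) 70707) (.leaf 659542788 (-10777171) 70707)) (.splitM (.leaf 637400697 (-11372551) 78337) (.leaf 637400697 (-11372551) 78337))))) (.splitS (.splitM (.splitS (.leaf 700527893 (-9744570) 59006) (.splitM (.leaf 680551142 (-10237533) 64358) (.splitS (.leaf 685685633 (-5054416) 15732) (.leaf 675448827 (-5183117) 16458)))) (.splitS (.splitM (.leaf 700527893 (-9744570) 59006) (.splitS (.leaf 705414621 (-4813285) 14449) (.leaf 695670667 (-4931286) 15065))) (.splitM (.splitS (.splitM (.leaf 685685633 (-5054416) 15732) (.leaf 685685633 (-5054416) 15732)) (.leaf 675448827 (-5183117) 16458)) (.leaf 680551142 (-10237533) 64358)))) (.splitM (.splitS (.splitM (.splitS (.leaf 664948615 (-5317887) 17250) (.leaf 654172311 (-5459284) 18116)) (.leaf 659542788 (-10777171) 70707)) (.leaf 637400697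 (-11372551) 78337)) (.leaf 648397311 (-22149721) 297780)))) (.splitM (.splitS (.splitM (.splitS (.splitM (.leaf 614002031 (-12035421) 87642) (.leaf 614002031 (-12035421) 87642)) (.leaf 589196819 (-12781338) 99189)) (.splitS (.leaf 614002031 (-12035421) 87642) (.leaf 589196819 (-12781338) 99189))) (.leaf 548561886 (-28246635) 492228)) (.leaf 574605019 (-53063394) 1718603))

/-- Part of the certificate. -/
def treeBababba : Tree :=
  .splitM treeBababbaa treeBababbab

/-- Part of the certificate. -/
def treeBababbb : Tree :=
  .splitM (.splitS (.splitM (.splitS (.splitM (.leaf 487571421 (-32953542) 701940) (.leaf 487571421 (-32953542) 701940)) (.leaf 414923957 (-40134801) 1142818)) (.splitS (.splitM (.leaf 487571421 (-32953542) 701940) (.leaf 487571421 (-32953542) 701940)) (.leaf 414923957 (-40134801) 1142818))) (.splitM (.splitS (.leaf 322455866 (-53658147) 2467674) (.leaf 166851563 (-133165023) 33686540)) (.leaf 234652941 (-186823170) 47829771))) (.splitS (.leaf 450349083 (-73088342) 3614402) (.leaf 234652941 (-186823170) 47829771))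

/-- Part of the certificate. -/
def treeBababb : Tree :=
  .splitS treeBababba treeBababbb

/-- Part of the certificate. -/
def treeBabab : Tree :=
  .splitM treeBababa treeBababb

/-- Part of the certificate. -/
def treeBaba : Tree :=
  .splitS treeBabaa treeBabab

/-- Part of the certificate. -/
def treeBabbaaa : Tree :=
  .splitM (.splitS (.leaf 909258836 (-21060436) 431578) (.splitM (.leaf 863482122 (-24788691) 503991) (.leaf 863482122 (-24788691) 503991))) (.splitS (.leaf 909258836 (-21060436) 431578) (.splitM (.leaf 863482122 (-24788691) 503991) (.splitS (.leaf 875997048 (-11890462) 120688) (.leaf 851219209 (-12898230) 131540))))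

/-- Part of the certificate. -/
def treeBabbaab : Tree :=
  .splitM (.splitS (.splitM (.leaf 809573667 (-29227453) 611680) (.splitS (.leaf 824332031 (-14002249) 144840) (.splitM (.leaf 795121142 (-15225204) 161403) (.leaf 795121142 (-15225204) 161403)))) (.splitM (.splitS (.splitM (.leaf 763319197 (-16597777) 182439) (.splitS (.leaf 771662206 (-8116474) 44145) (.leaf 755067404 (-8481303) 47120))) (.splitM (.splitS (.leaf 737717900 (-8871605) 50524) (.splitM (.leaf 719559061 (-9291158) 54447) (.splitS (.leaf 724217987 (-4591138) 13353) (.leaf 714927357 (-4700020) 13880)))) (.splitS (.splitM (.leaf 737717900 (-8871605) 50524) (.leaf 737717900 (-8871605) 50524)) (.leaf 719559061 (-9291158) 54447)))) (.splitS (.splitM (.splitS (.leaf 771662206 (-8116474) 44145) (.splitM (.leaf 755067404 (-8481303) 47120) (.leaf 755067404 (-8481303) 47120))) (.splitS (.leaf 771662206 (-8116474) 44145) (.leaf 755067404 (-8481303) 47120))) (.leaf 728586031 (-18162762) 209812)))) (.splitS (.splitM (.splitS (.leaf 824332031 (-14002249) 144840) (.splitM (.splitS (.leaf 802772935 (-7451217) 39209)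 (.leaf 787550049 (-7773987) 41527)) (.leaf 795121142 (-15225204) 161403))) (.splitS (.splitM (.leaf 824332031 (-14002249) 144840) (.leaf 824332031 (-14002249) 144840)) (.leaf 795121142 (-15225204) 161403))) (.leaf 745756917 (-34760539) 782921))

/-- Part of the certificate. -/
def treeBabbaa : Tree :=
  .splitS treeBabbaaa treeBabbaab

/-- Part of the certificate. -/
def treeBabbab : Tree :=
  .splitS (.splitM (.splitS (.splitM (.leaf 909258836 (-21060436) 431578) (.leaf 909258836 (-21060436) 431578)) (.splitM (.splitS (.leaf 875997048 (-11890462) 120688) (.leaf 851219209 (-12898230) 131540)) (.leaf 863482122 (-24788691) 503991))) (.splitS (.splitM (.leaf 909258836 (-21060436) 431578) (.leaf 909258836 (-21060436) 431578)) (.leaf 863482122 (-24788691) 503991))) (.leaf 776972685 (-63987992) 2771237)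

/-- Part of the certificate. -/
def treeBabba : Tree :=
  .splitM treeBabbaa treeBabbab

/-- Part of the certificate. -/
def treeBabbb : Tree :=
  .splitM (.splitS (.splitM (.splitS (.splitM (.splitS (.splitM (.splitS (.splitM (.leaf 700527893 (-9744570) 59006) (.leaf 700527893 (-9744570) 59006)) (.leaf 680551142 (-10237533) 64358)) (.leaf 690477890 (-19982103) 246536)) (.leaf 648397311 (-22149721) 297780)) (.leaf 669166520 (-42131824) 1084887)) (.leaf 574605019 (-53063394) 1718603)) (.leaf 620516286 (-95195217) 5498046)) (.leaf 328103061 (-259911512) 68191549)) (.leaf 453180062 (-355106729) 98073333)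

/-- Part of the certificate. -/
def treeBabb : Tree :=
  .splitS treeBabba treeBabbb

/-- Part of the certificate. -/
def treeBab : Tree :=
  .splitM treeBaba treeBabb

/-- Part of the certificate. -/
def treeBa : Tree :=
  .splitS treeBaa treeBab

/-- Part of the certificate. -/
def treeBba : Tree :=
  .splitM (.splitS (.splitM (.splitS (.splitM (.leaf 1070586818 (-4210818) 1055814) (.leaf 1070586818 (-4210818) 1055814)) (.splitM (.leaf 1053590895 (-12837070) 1107778) (.leaf 1053590895 (-12837070) 1107778))) (.splitS (.leaf 1070586818 (-4210818) 1055814) (.leaf 1053590895 (-12837070) 1107778))) (.splitM (.splitS (.splitM (.leaf 1018741199 (-22130370) 1225521) (.leaf 1018741199 (-22130370) 1225521)) (.splitM (.splitS (.leaf 980800675 (-14928448) 343814) (.leaf 948088716 (-17820360) 380662)) (.splitS (.leaf 980800675 (-14928448) 343814) (.leaf 948088716 (-17820360) 380662)))) (.splitS (.splitM (.leaf 1018741199 (-22130370) 1225521) (.leaf 1018741199 (-22130370) 1225521)) (.splitM (.splitS (.leaf 980800675 (-14928448) 343814) (.leaf 948088716 (-17820360) 380662)) (.leaf 964082877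 (-32748808) 1446376))))) (.splitS (.splitM (.splitS (.leaf 1070586818 (-4210818) 1055814) (.leaf 1053590895 (-12837070) 1107778)) (.splitS (.leaf 1070586818 (-4210818) 1055814) (.leaf 1053590895 (-12837070) 1107778))) (.splitM (.splitS (.splitM (.leaf 1018741199 (-22130370) 1225521) (.leaf 1018741199 (-22130370) 1225521)) (.leaf 964082877 (-32748808) 1446376)) (.splitS (.splitM (.leaf 1018741199 (-22130370) 1225521) (.leaf 1018741199 (-22130370) 1225521)) (.leaf 964082877 (-32748808) 1446376))))

/-- Part of the certificate. -/
def treeBbb : Tree :=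
  .splitM (.splitS (.splitM (.splitS (.splitM (.splitS (.leaf 909258836 (-21060436) 431578) (.leaf 863482122 (-24788691) 503991)) (.leaf 885903945 (-45849127) 1865378)) (.leaf 776972685 (-63987992) 2771237)) (.leaf 829159715 (-109837119) 9109140)) (.leaf 453180062 (-355106729) 98073333)) (.splitS (.leaf 829159715 (-109837119) 9109140) (.leaf 453180062 (-355106729) 98073333))

/-- Part of the certificate. -/
def treeBb : Tree :=
  .splitS treeBba treeBbb

/-- Part of the certificate. -/
def treeB : Tree :=
  .splitM treeBa treeBb

set_option maxRecDepth 100000 in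
theorem treeA_check : treeA.check parA 0 N 0 (7 * N / 2) = true := by
  decide +kernel

set_option maxRecDepth 100000 in
theorem treeB_check : treeB.check parB 0 N 0 (7 * N / 2) = true := by
  decide +kernel

end Vale.Agent.P237.Four
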