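import Vale.Agent.P237.Profile.Deriv

/-!
# The functional of the profile lemma for `ℝ⁴`
-/

namespace Vale.Agent.P237.Four

open MeasureTheory Profile
open scoped Real

/-- The constants of one range of the volume ratio. -/
structure Par where
  th : ℕ
  c2 : ℕ
  c1 : ℕ

/-- Used for volume ratios at most `13/10`. -/
def parA : Par := ⟨4340, 9772, 80943⟩

/-- Used for volume ratios between `13/10` and `4`. -/
def parB : Par := ⟨3886, 9741, 77548⟩

/-- The weight of the square of `y`. -/
noncomputable def Par.θ (P : Par) : ℝ := P.th / 10000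

/-- The weight of the second moment. -/
noncomputable def Par.b (P : Par) : ℝ := P.c2 / 100000

/-- The weight of the volume. -/
noncomputable def Par.a (P : Par) : ℝ := P.c1 / 100000

/-- The normalised square moment along the path. -/
noncomputable def yq (g : ℝ → ℝ) (q : ℝ) : ℝ := 3 / 2 * ∫ t, path g q t ^ 2 ∂μI

/-- The functional along the path. -/
noncomputable def psi (P : Par) (g : ℝ → ℝ) (q : ℝ) : ℝ :=
  (1 - P.θ) * yq g q + P.θ * yq g q ^ 2
    - 16 / (3 * π) * ∫ t, (P.a + 6 * P.b * t ^ 2) * path g q t ^ 3 ∂μI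

/-- Its right derivative. -/
noncomputable def dpsi (P : Par) (g : ℝ → ℝ) (q : ℝ) : ℝ :=
  (1 - P.θ + 2 * P.θ * yq g q) * (3 * ∫ t, path g q t * dpath g q t ∂μI)
    - 16 / π * ∫ t, (P.a + 6 * P.b * t ^ 2) * path g q t ^ 2 * dpath g q t ∂μI

end Vale.Agent.P237.Four
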