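import Vale.Agent.P237.Four.Stage
import Vale.Agent.P237.Profile.Segment

/-!
# The derivative along the path is nonnegative, in `ℝ⁴`
-/

namespace Vale.Agent.P237.Four

open Set MeasureTheory Profile
open scoped Real

variable {g : ℝ → ℝ} {p q : ℝ}

lemma ii_poly5 (d a b c e f : ℝ) :
    ∫ w in (0:ℝ)..d, (a * w ^ 1 + b * w ^ 2 + c * w ^ 3 + e * w ^ 4 + f * w ^ 5)
      = a * d ^ 2 / 2 + b * d ^ 3 / 3 + c * d ^ 4 / 4 + e * d ^ 5 / 5 + f * d ^ 6 / 6 := by
  rw [intervalIntegral.integral_add ((((ii_pow 0 d 1 a).add (ii_pow 0 d 2 b)).add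
      (ii_pow 0 d 3 c)).add (ii_pow 0 d 4 e)) (ii_pow 0 d 5 f), ii_poly4,
    intervalIntegral.integral_const_mul, integral_pow]
  norm_num
  ring

lemma int_tang_dtang (h : Seg g p q) :
    ∫ t in p..q, tang q t * tang' q t
      = ((q - p) / √(1 - q ^ 2)) ^ 2 / √(1 - q ^ 2)
          * uR √(1 - q ^ 2) q ((q - p) / √(1 - q ^ 2)) := by
  have hq0 := h.q_pos
  set S := √(1 - q ^ 2) with hSd
  have hS : 0 < S := sqrt_pos_of (by linarith) h.hq
  have key := ii_sub_left (fun w => (S / S ^ 3) * w ^ 1 + (q / S / S ^ 3) * w ^ 2 + 0 * w ^ 3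
    + 0 * w ^ 4) p q
  rw [ii_poly4] at key
  rw [ii_congr (h := fun t => (S / S ^ 3) * (q - t) ^ 1 + (q / S / S ^ 3) * (q - t) ^ 2
    + 0 * (q - t) ^ 3 + 0 * (q - t) ^ 4) h.hpq.le ?_, key]
  · unfold uR
    field_simp
    ring
  · intro t _
    have hT : tang q t = S + q * (q - t) / S := by
      conv_lhs => rw [show t = q - (q - t) by ring]
      exact tang_sub hq0.le h.hq
    rw [hT, tang', ← hSd]
    field_simp
    ring

lemma int_sq_dtang (h : Seg g p q) :
    ∫ t in p..q, tang q t ^ 2 * tang' q t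
      = ((q - p) / √(1 - q ^ 2)) ^ 2 / √(1 - q ^ 2)
          * sqR √(1 - q ^ 2) q ((q - p) / √(1 - q ^ 2)) := by
  have hq0 := h.q_pos
  set S := √(1 - q ^ 2) with hSd
  have hS : 0 < S := sqrt_pos_of (by linarith) h.hq
  have key := ii_sub_left (fun w => (S ^ 2 / S ^ 3) * w ^ 1 + (2 * q / S ^ 3) * w ^ 2
    + (q ^ 2 / S ^ 2 / S ^ 3) * w ^ 3 + 0 * w ^ 4) p q
  rw [ii_poly4] at key
  rw [ii_congr (h := fun t => (S ^ 2 / S ^ 3) * (q - t) ^ 1 + (2 * q / S ^ 3) * (q - t) ^ 2
    + (q ^ 2 / S ^ 2 / S ^ 3) * (q - t) ^ 3 + 0 * (q - t) ^ 4) h.hpq.le ?_, key]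
  · unfold sqR
    field_simp
    ring
  · intro t _
    have hT : tang q t = S + q * (q - t) / S := by
      conv_lhs => rw [show t = q - (q - t) by ring]
      exact tang_sub hq0.le h.hq
    rw [hT, tang', ← hSd]
    field_simp
    ring

lemma int_wsq_dtang (h : Seg g p q) :
    ∫ t in p..q, t ^ 2 * (tang q t ^ 2 * tang' q t)
      = ((q - p) / √(1 - q ^ 2)) ^ 2 / √(1 - q ^ 2)
          * wsqR √(1 - q ^ 2) q ((q - p) / √(1 - q ^ 2)) := by
  have hq0 := h.q_pos
  set S := √(1 - q ^ 2) with hSd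
  have hS : 0 < S := sqrt_pos_of (by linarith) h.hq
  set a := q * S with had
  set b := (q ^ 2 - S ^ 2) / S with hbd
  set c := -(q / S) with hcd
  have key := ii_sub_left (fun w => (a ^ 2 / S ^ 3) * w ^ 1 + (2 * a * b / S ^ 3) * w ^ 2
    + ((b ^ 2 + 2 * a * c) / S ^ 3) * w ^ 3 + (2 * b * c / S ^ 3) * w ^ 4
    + (c ^ 2 / S ^ 3) * w ^ 5) p q
  rw [ii_poly5] at key
  rw [ii_congr (h := fun t => (a ^ 2 / S ^ 3) * (q - t) ^ 1 + (2 * a * b / S ^ 3) * (q - t) ^ 2
    + ((b ^ 2 + 2 * a * c) / S ^ 3) * (q - t) ^ 3 + (2 * b * c / S ^ 3) * (q - t) ^ 4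
    + (c ^ 2 / S ^ 3) * (q - t) ^ 5) h.hpq.le ?_, key]
  · simp only [wsqR, had, hbd, hcd]
    field_simp
    ring
  · intro t _
    have hT : tang q t = S + q * (q - t) / S := by
      conv_lhs => rw [show t = q - (q - t) by ring]
      exact tang_sub hq0.le h.hq
    rw [hT, tang', ← hSd, had, hbd, hcd]
    field_simp
    ring

lemma wsq_le_sq (h : Seg g p q) :
    wsqR √(1 - q ^ 2) q ((q - p) / √(1 - q ^ 2)) ≤ sqR √(1 - q ^ 2) q ((q - p) / √(1 - q ^ 2)) := by
  have hq0 := h.q_pos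
  have hS : 0 < √(1 - q ^ 2) := sqrt_pos_of (by linarith) h.hq
  have hmono : ∫ t in p..q, t ^ 2 * (tang q t ^ 2 * tang' q t)
      ≤ ∫ t in p..q, tang q t ^ 2 * tang' q t := by
    refine ii_mono h.hpq.le
      ((by unfold tang tang'; fun_prop : Continuous _).intervalIntegrable p q)
      ((by unfold tang tang'; fun_prop : Continuous _).intervalIntegrable p q) fun t ht => ?_
    have hd : 0 ≤ tang' q t := div_nonneg (by linarith [ht.2]) (pow_nonneg hS.le _)
    have ht2 : t ^ 2 ≤ 1 :=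
      pow_le_one₀ (h.hp.trans ht.1.le) (by linarith [ht.2, h.hq])
    exact mul_le_of_le_one_left (mul_nonneg (sq_nonneg _) hd) ht2
  rw [int_wsq_dtang h, int_sq_dtang h] at hmono
  exact le_of_mul_le_mul_left hmono
    (div_pos (pow_pos (div_pos (by linarith [h.hpq]) hS) 2) hS)

lemma integral_path_sq (hg : Profile.Adm g) (h : Seg g p q) :
    ∫ t, path g q t ^ 2 ∂μI = (∫ t in (0:ℝ)..p, (g t ^ 2 - (1 - t ^ 2)))
      + ((q - p) / √(1 - q ^ 2)) ^ 3 * √(1 - q ^ 2) / 3 + 2 / 3 := by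
  have hq1 := h.hq
  have hq0 := h.q_pos
  set S := √(1 - q ^ 2) with hSd
  have hS : 0 < S := sqrt_pos_of (by linarith) hq1
  have hS2 : S ^ 2 = 1 - q ^ 2 := Real.sq_sqrt (by nlinarith)
  have hpq := h.hpq.le
  have hp1 : p ≤ 1 := by linarith
  have hint : Integrable (fun t => path g q t ^ 2) μI := by
    refine Integrable.of_bound ((path_aemeas hg hq1).pow 2) (g 0 ^ 2) ?_
    filter_upwards [ae_mem] with t ht
    rw [Real.norm_eq_abs, abs_of_nonneg (sq_nonneg _)]
    exact pow_le_pow_left₀ (path_nonneg hg ht hq1)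
      ((path_le q t).trans (hg.le_zero (Ioo_subset_Icc_self ht))) 2
  have hpI : ∀ a b, 0 ≤ a → a ≤ b → b ≤ 1 →
      IntervalIntegrable (fun t => path g q t ^ 2) volume a b := by
    intro a b ha hab hb
    rw [intervalIntegrable_iff_integrableOn_Ioo_of_le hab]
    exact IntegrableOn.mono_set hint (Ioo_subset_Ioo ha hb)
  have hg2I : IntervalIntegrable (fun t => g t ^ 2) volume 0 p := by
    refine AntitoneOn.intervalIntegrable ?_
    rw [uIcc_of_le h.hp]
    intro u hu v hv huv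
    exact pow_le_pow_left₀ (hg.nonneg (Icc_subset_Icc le_rfl hp1 hv))
      (hg.anti (Icc_subset_Icc le_rfl hp1 hu) (Icc_subset_Icc le_rfl hp1 hv) huv) 2
  have hs2I : ∀ a b, IntervalIntegrable (fun t : ℝ => 1 - t ^ 2) volume a b := fun a b =>
    (by fun_prop : Continuous fun t : ℝ => 1 - t ^ 2).intervalIntegrable a b
  have hT2I : ∀ a b, IntervalIntegrable (fun t => tang q t ^ 2) volume a b := fun a b =>
    (by unfold tang; fun_prop : Continuous fun t => tang q t ^ 2).intervalIntegrable a b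
  have e23 : ∫ t in (0:ℝ)..1, (1 - t ^ 2) = 2/3 := by
    rw [intervalIntegral.integral_sub intervalIntegrable_const
      ((by fun_prop : Continuous fun t : ℝ => t ^ 2).intervalIntegrable 0 1), integral_pow]
    simp; norm_num
  have eT : ∫ t in p..q, (tang q t ^ 2 - (1 - t ^ 2)) = ((q - p) / S) ^ 3 * S / 3 := by
    have key := ii_sub_left (fun w => 0 * w ^ 1 + (1 / S ^ 2) * w ^ 2 + 0 * w ^ 3 + 0 * w ^ 4) p q
    rw [ii_poly4] at key
    rw [ii_congr (h := fun t => 0 * (q - t) ^ 1 + (1 / S ^ 2) * (q - t) ^ 2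
      + 0 * (q - t) ^ 3 + 0 * (q - t) ^ 4) hpq ?_, key]
    · field_simp; ring
    · intro t _
      rw [tang, ← hSd]
      field_simp
      rw [hS2]; ring
  rw [← eT, muI_integral, ← e23, intervalIntegral.integral_sub hg2I (hs2I _ _),
    intervalIntegral.integral_sub (hT2I _ _) (hs2I _ _),
    ← intervalIntegral.integral_add_adjacent_intervals (hs2I 0 p) (hs2I p 1),
    ← intervalIntegral.integral_add_adjacent_intervals (hs2I p q) (hs2I q 1),
    ← intervalIntegral.integral_add_adjacent_intervals (hpI 0 p le_rfl h.hp hp1)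
      (hpI p 1 h.hp hp1 le_rfl),
    ← intervalIntegral.integral_add_adjacent_intervals (hpI p q h.hp hpq hq1.le)
      (hpI q 1 hq0.le hq1.le le_rfl),
    ii_congr h.hp (h := fun t => g t ^ 2) (fun t ht => by rw [h.path_low ht]),
    ii_congr hpq (h := fun t => tang q t ^ 2) (fun t ht => by rw [h.path_mid ht]),
    ii_congr hq1.le (h := fun t => 1 - t ^ 2) (fun t ht => by
      rw [h.path_high hg ht, Real.sq_sqrt]; nlinarith [ht.1, ht.2])]
  ring

lemma left_gain (hg : Profile.Adm g) (h : Seg g p q) {r : ℝ} (hr0 : 0 ≤ r) (hr : r ≤ p) :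
    (p - r) * (tang q p * tang q p - 1) + (p ^ 3 - r ^ 3) / 3
      ≤ ∫ t in (0:ℝ)..p, (g t ^ 2 - (1 - t ^ 2)) := by
  have hp1 : p ≤ 1 := by linarith [h.hpq, h.hq]
  have hgI : ∀ a b, 0 ≤ a → a ≤ b → b ≤ 1 →
      IntervalIntegrable (fun t => g t ^ 2 - (1 - t ^ 2)) volume a b := by
    intro a b ha hab hb
    refine IntervalIntegrable.sub (AntitoneOn.intervalIntegrable ?_)
      ((by fun_prop : Continuous fun t : ℝ => 1 - t ^ 2).intervalIntegrable a b)
    rw [uIcc_of_le hab]
    intro u hu v hv huv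
    exact pow_le_pow_left₀ (hg.nonneg (Icc_subset_Icc ha hb hv))
      (hg.anti (Icc_subset_Icc ha hb hu) (Icc_subset_Icc ha hb hv) huv) 2
  have h0 : 0 ≤ ∫ t in (0:ℝ)..r, (g t ^ 2 - (1 - t ^ 2)) :=
    intervalIntegral.integral_nonneg hr0 fun t ht => by
      have h' := hg.ge t ⟨ht.1, by linarith [ht.2]⟩
      have h'' := Real.sq_sqrt (by nlinarith [ht.1, ht.2] : (0:ℝ) ≤ 1 - t ^ 2)
      nlinarith [Real.sqrt_nonneg (1 - t ^ 2)]
  have hlow : ∫ t in r..p, ((tang q p * tang q p - 1) + t ^ 2)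
      ≤ ∫ t in r..p, (g t ^ 2 - (1 - t ^ 2)) := by
    refine ii_mono hr ((by fun_prop : Continuous _).intervalIntegrable _ _) (hgI r p hr0 hr hp1)
      fun t ht => ?_
    have hc := (h.ge_chord hg ⟨hr0.trans_lt ht.1, ht.2⟩).1
    have hy0 : 0 ≤ tang q p :=
      (Real.sqrt_nonneg _).trans (sqrt_le_tang (by linarith [h.q_pos]) h.hq
        (by nlinarith [h.hq, h.q_pos, h.hp]))
    nlinarith
  rw [intervalIntegral.integral_add intervalIntegrable_const
    ((by fun_prop : Continuous fun t : ℝ => t ^ 2).intervalIntegrable r p),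
    intervalIntegral.integral_const, integral_pow] at hlow
  rw [← intervalIntegral.integral_add_adjacent_intervals (hgI 0 r le_rfl hr0 (hr.trans hp1))
    (hgI r p hr0 hr hp1)]
  norm_num at hlow
  linarith

lemma volume_bound (hg : Profile.Adm g) (h : Seg g p q) :
    q ^ 4 * ((q - p) / √(1 - q ^ 2)) ^ 3 ≤ 4 * ∫ t in (0:ℝ)..1, g t ^ 3 := by
  have hq1 := h.hq
  have hq0 := h.q_pos
  set S := √(1 - q ^ 2) with hSd
  have hS : 0 < S := sqrt_pos_of (by linarith) hq1
  set m := (q - p) / S with hmd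
  have hm : 0 ≤ m := div_nonneg (by linarith [h.hpq]) hS.le
  have hmS : m * S = q - p := div_mul_cancel₀ _ hS.ne'
  have hpq := h.hpq.le
  have hp1 : p ≤ 1 := by linarith
  have hT : ∀ t, tang q t = S + q * (q - t) / S := fun t => by
    conv_lhs => rw [show t = q - (q - t) by ring]
    exact tang_sub hq0.le hq1
  have hgI : ∀ a b, 0 ≤ a → a ≤ b → b ≤ 1 →
      IntervalIntegrable (fun t => g t ^ 3) volume a b := by
    intro a b ha hab hb
    refine AntitoneOn.intervalIntegrable ?_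
    rw [uIcc_of_le hab]
    intro u hu v hv huv
    exact pow_le_pow_left₀ (hg.nonneg (Icc_subset_Icc ha hb hv))
      (hg.anti (Icc_subset_Icc ha hb hu) (Icc_subset_Icc ha hb hv) huv) 3
  have a1 : p * (q * m) ^ 3 ≤ ∫ t in (0:ℝ)..p, g t ^ 3 := by
    have := ii_mono h.hp (intervalIntegrable_const (c := (q * m) ^ 3)) (hgI 0 p le_rfl h.hp hp1)
      fun t ht => pow_le_pow_left₀ (mul_nonneg hq0.le hm)
        ((show q * m ≤ tang q p by rw [hT, hmd, mul_div_assoc]; linarith).trans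
          (h.ge_chord hg ht).1) 3
    simpa using this
  have a2 : q ^ 3 / S ^ 3 * ((q - p) ^ 4 / 4) ≤ ∫ t in p..q, g t ^ 3 := by
    have key := ii_sub_left (fun w => 0 * w ^ 1 + 0 * w ^ 2 + (q ^ 3 / S ^ 3) * w ^ 3
      + 0 * w ^ 4) p q
    rw [ii_poly4] at key
    have := ii_mono hpq ((by fun_prop : Continuous fun t : ℝ => 0 * (q - t) ^ 1
      + 0 * (q - t) ^ 2 + (q ^ 3 / S ^ 3) * (q - t) ^ 3 + 0 * (q - t) ^ 4).intervalIntegrable p q)
      (hgI p q h.hp hpq hq1.le) fun t ht => by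
        have h1 : 0 ≤ q * (q - t) / S := div_nonneg (mul_nonneg hq0.le (by linarith [ht.2])) hS.le
        have h2 : q * (q - t) / S ≤ g t := by
          have := (h.above t ht).le
          rw [hT] at this
          linarith
        calc _ = (q * (q - t) / S) ^ 3 := by field_simp; ring
          _ ≤ g t ^ 3 := pow_le_pow_left₀ h1 h2 3
    rw [key] at this
    linarith
  have a3 : 0 ≤ ∫ t in q..1, g t ^ 3 :=
    intervalIntegral.integral_nonneg hq1.le fun t ht =>
      pow_nonneg (hg.nonneg ⟨hq0.le.trans ht.1, ht.2⟩) 3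
  have e : p * (q * m) ^ 3 + q ^ 3 / S ^ 3 * ((q - p) ^ 4 / 4)
      = q ^ 3 * m ^ 3 * (q - 3/4 * (m * S)) := by
    rw [hmd]; field_simp; ring
  have e2 : q ^ 3 * m ^ 3 * (q / 4) ≤ q ^ 3 * m ^ 3 * (q - 3/4 * (m * S)) :=
    mul_le_mul_of_nonneg_left (by rw [hmS]; linarith [h.hp]) (by positivity)
  rw [← intervalIntegral.integral_add_adjacent_intervals (hgI 0 p le_rfl h.hp hp1)
      (hgI p 1 h.hp hp1 le_rfl),
    ← intervalIntegral.integral_add_adjacent_intervals (hgI p q h.hp hpq hq1.le)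
      (hgI q 1 hq0.le hq1.le le_rfl)]
  linarith

/-- The functional does not decrease along the path. -/
theorem dpsi_nonneg {P : Par} (hP : P = parA ∨ P = parB) (hg : Profile.Adm g) {q : ℝ}
    (_hq0 : 0 ≤ q) (hq1 : q < 1) (hW : ∫ t in (0:ℝ)..1, g t ^ 3 ≤ 3 * π / 4) :
    0 ≤ dpsi P g q := by
  by_cases hE : ∃ t ∈ Ioo (0:ℝ) 1, t < q ∧ tang q t < g t
  swap
  · have h0 : dpath g q =ᵐ[μI] 0 := by
      filter_upwards [ae_mem] with t ht
      exact if_neg fun hc => hE ⟨t, ht, hc⟩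
    have h1 : (fun t => path g q t * dpath g q t) =ᵐ[μI] 0 := by
      filter_upwards [h0] with t ht
      simp only [Pi.zero_apply] at ht ⊢
      rw [ht]; ring
    have h2 : (fun t => (P.a + 6 * P.b * t ^ 2) * path g q t ^ 2 * dpath g q t) =ᵐ[μI] 0 := by
      filter_upwards [h0] with t ht
      simp only [Pi.zero_apply] at ht ⊢
      rw [ht]; ring
    rw [dpsi, integral_congr_ae h1, integral_congr_ae h2]
    simp
  obtain ⟨p, h⟩ := exists_seg hg hq1 hE
  have hq0 := h.q_pos
  set S := √(1 - q ^ 2) with hSd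
  have hS : 0 < S := sqrt_pos_of (by linarith) hq1
  have hS2 : S ^ 2 = 1 - q ^ 2 := Real.sq_sqrt (by nlinarith)
  set m := (q - p) / S with hmd
  have hm : 0 < m := div_pos (by linarith [h.hpq]) hS
  have hpR : pR S q m = p := by
    rw [pR, hmd, div_mul_cancel₀ _ hS.ne']; ring
  have hlR : lR S q m = tang q p := by
    rw [lR, hmd]
    conv_rhs => rw [show p = q - (q - p) by ring, tang_sub hq0.le hq1, ← hSd]
    ring
  set d := yq g q - 1 with hdd
  have hd : ∀ r, 0 ≤ r → r ≤ p →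
      3/2 * (g0R S m + ((p - r) * (tang q p * tang q p - 1) + (p ^ 3 - r ^ 3) / 3)) ≤ d := by
    intro r hr0 hr
    have hl := left_gain hg h hr0 hr
    have e : m * m * m * S * (1/3) = m ^ 3 * S / 3 := by ring
    rw [hdd, yq, integral_path_sq hg h, ← hSd, ← hmd, g0R, e]
    linarith
  have hm7 : m ≤ 7/2 := by
    by_contra hc
    push Not at hc
    have hv := volume_bound hg h
    rw [← hSd, ← hmd] at hv
    have h3 : (343:ℝ)/8 ≤ m ^ 3 := by
      calc (343:ℝ)/8 = (7/2) ^ 3 := by norm_num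
        _ ≤ m ^ 3 := pow_le_pow_left₀ (by norm_num) hc.le 3
    have h4 : q ^ 4 * (343/8) ≤ q ^ 4 * m ^ 3 := mul_le_mul_of_nonneg_left h3 (by positivity)
    have hq2 : q ^ 2 ≤ 48/100 := by nlinarith [Real.pi_lt_d2]
    have hSl : 7/10 ≤ S := by nlinarith
    have hql : q ≤ 7/10 := by nlinarith
    have : m * S ≤ q := by rw [hmd, div_mul_cancel₀ _ hS.ne']; linarith [h.hp]
    nlinarith
  have hstage := stage_ineq hP (S := S) (q := q) (m := m) (d := d)
    { hS := hS, hq := hq0.le, hsq := by rw [hS2]; ring, hm := hm.le, hm7 := hm7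
      hp := by rw [hpR]; exact h.hp
      hQ := by rw [hmd, hSd]; exact wsq_le_sq h
      hd0 := by
        have := hd p h.hp le_rfl
        simpa using this
      hd1 := by
        refine le_trans (le_of_eq ?_) (hd 0 le_rfl h.hp)
        rw [glR, hpR, hlR]; ring
      hd2 := by
        refine le_trans (le_of_eq ?_) (hd (p / 2) (by linarith [h.hp]) (by linarith [h.hp]))
        rw [glR, hpR, hlR]; ring }
  -- the two integrals
  have e1 : ∫ t, path g q t * dpath g q t ∂μI = m ^ 2 / S * uR S q m := by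
    have : (fun t => path g q t * dpath g q t)
        =ᵐ[μI] (Ioo p q).indicator (fun t => tang q t * tang' q t) := by
      filter_upwards [h.dpath_eq] with t ht
      rw [ht]
      by_cases hmem : t ∈ Ioo p q
      · rw [indicator_of_mem hmem, indicator_of_mem hmem, h.path_mid hmem]
      · rw [indicator_of_notMem hmem, indicator_of_notMem hmem, mul_zero]
    rw [integral_congr_ae this, indicator_integral h, int_tang_dtang h]
  have e2 : ∫ t, (P.a + 6 * P.b * t ^ 2) * path g q t ^ 2 * dpath g q t ∂μI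
      = m ^ 2 / S * (P.a * sqR S q m + 6 * P.b * wsqR S q m) := by
    have : (fun t => (P.a + 6 * P.b * t ^ 2) * path g q t ^ 2 * dpath g q t)
        =ᵐ[μI] (Ioo p q).indicator (fun t => P.a * (tang q t ^ 2 * tang' q t)
          + 6 * P.b * (t ^ 2 * (tang q t ^ 2 * tang' q t))) := by
      filter_upwards [h.dpath_eq] with t ht
      rw [ht]
      by_cases hmem : t ∈ Ioo p q
      · rw [indicator_of_mem hmem, indicator_of_mem hmem, h.path_mid hmem]; ring
      · rw [indicator_of_notMem hmem, indicator_of_notMem hmem, mul_zero]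
    rw [integral_congr_ae this, indicator_integral h,
      intervalIntegral.integral_add
        ((by unfold tang tang'; fun_prop : Continuous _).intervalIntegrable p q)
        ((by unfold tang tang'; fun_prop : Continuous _).intervalIntegrable p q),
      intervalIntegral.integral_const_mul, intervalIntegral.integral_const_mul,
      int_sq_dtang h, int_wsq_dtang h, ← hSd, ← hmd]
    ring
  have hK : 16 / π ≤ 5092960 / 1000000 := by
    rw [div_le_div_iff₀ Real.pi_pos (by norm_num)]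
    nlinarith [Real.pi_gt_d6]
  have ha : 0 ≤ P.a := by unfold Par.a; positivity
  have hb : 0 ≤ P.b := by unfold Par.b; positivity
  have hsq0 : 0 ≤ sqR S q m := by unfold sqR; positivity
  have hw0 : 0 ≤ wsqR S q m := by
    have hI := int_wsq_dtang h
    rw [← hSd, ← hmd] at hI
    have : 0 ≤ ∫ t in p..q, t ^ 2 * (tang q t ^ 2 * tang' q t) :=
      intervalIntegral.integral_nonneg h.hpq.le fun t ht =>
        mul_nonneg (sq_nonneg _) (mul_nonneg (sq_nonneg _)
          (div_nonneg (by linarith [ht.2]) (pow_nonneg (Real.sqrt_nonneg _) _)))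
    rw [hI] at this
    exact nonneg_of_mul_nonneg_right this (by positivity)
  have hneg : 16 / π * (P.a * sqR S q m + 6 * P.b * wsqR S q m)
      ≤ (1 + P.θ + 2 * P.θ * d) * (3 * uR S q m) := by
    refine le_trans ?_ hstage
    refine (mul_le_mul_of_nonneg_right hK (by positivity)).trans (le_of_eq ?_)
    unfold negR Par.a Par.b
    ring
  have hy : 1 - P.θ + 2 * P.θ * yq g q = 1 + P.θ + 2 * P.θ * d := by rw [hdd]; ring
  rw [dpsi, e1, e2, hy]
  have := mul_le_mul_of_nonneg_left hneg (show (0:ℝ) ≤ m ^ 2 / S by positivity)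
  linarith

end Vale.Agent.P237.Four
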