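import Vale.Agent.P237.Four.Main
import Vale.Agent.P237.Four.Segment
import Vale.Agent.P237.Gen.Equality.Euclid
import Vale.Agent.P237.Gen.Equality.Contact

/-!
Equality in Petty's inequality in dimension four: exactly the ellipsoids.
-/

open MeasureTheory Set
open Vale.Agent.P237.Gen
open Vale.Agent.P237.Gen.Contact (pw semi Adm excess)

namespace Vale.Agent.P237.Four

noncomputable section

theorem dpsi_all : DPsiNonneg := fun _ hP _ hg _ h0 h1 hW => dpsi_nonneg hP hg h0 h1 hW

theorem stage_lemma : StageLemma := stageLemma_of_dpsi dpsi_all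

theorem contactEq_three : Gen.Eq.ContactEq 3 (pcN (3 + 1) / pcN 3) := by
  refine Gen.Eq.contactEq_of_profile (by norm_num) fun f hf h0 hle => ?_
  have hm := moment_of_excess hf h0
  rw [pw_three_semi] at hm
  norm_num at hm
  have hW : 0 < pw 3 f := (Contact.pw_semi_pos 3).trans_le (pw_semi_le hf 3)
  have hc : (0:ℝ) < 3 * Real.pi / 16 := by positivity
  have hR : 0 < pw 3 f / (3 * Real.pi / 16) := div_pos hW hc
  have hmain := (stage_core dpsi_all hf (by
    refine le_trans (le_of_eq ?_) hm
    rw [show (3 / 2 : ℝ) = 1 / 2 + 1 by norm_num, Real.rpow_add hR, Real.rpow_one]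
    field_simp)).2
  simp only [pw_two_semi, pw_three_semi, show (3:ℕ) - 1 = 2 from rfl] at hle ⊢
  by_contra hne
  have hlo := pw_semi_le hf 3
  rw [pw_three_semi] at hlo
  have h1 := hmain ((one_lt_div hc).2 (lt_of_le_of_ne hlo (Ne.symm hne)))
  rw [div_pow (pw 3 f), div_pow (pw 2 f), div_lt_div_iff₀ (by positivity) (by positivity)] at h1
  linarith

theorem petty_three_fin : ∀ S : Set (Fin 3 → ℝ), IsCompact S → Convex ℝ S →
    pcN 3 * volume.real S ^ (3 - 1) ≤ volume.real (AllN.piSet S) :=
  petty_of_sharpContact 3 (by norm_num) fun n h2 h3 => by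
    interval_cases n
    exact sharpContact_two

theorem petty_four_body : Gen.Eq.Petty 3 (pcN 3 * (pcN (3 + 1) / pcN 3)) := by
  intro K hK
  rw [mul_div_cancel₀ _ (pcN_pos 3).ne']
  exact petty_of_sharpContact 4 (by norm_num) (fun n h2 h4 => by
    interval_cases n
    · exact sharpContact_two
    · exact sharpContact_three stage_lemma) K hK.2.1 hK.1

/-- **Petty's inequality in dimension four with its equality cases.** -/
theorem petty_four_eq_iff {K : Set (EuclideanSpace ℝ (Fin 4))} (hc : Convex ℝ K) (hk : IsCompact K)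
    (hi : (interior K).Nonempty) :
    volume.real (Every.projBody K) = Every.kappa 3 ^ 4 / Every.kappa 4 ^ 2 * volume.real K ^ 3 ↔
      ∃ (a : EuclideanSpace ℝ (Fin 4))
        (T : EuclideanSpace ℝ (Fin 4) ≃ₗ[ℝ] EuclideanSpace ℝ (Fin 4)),
        K = (fun x => a + T x) '' Metric.closedBall 0 1 :=
  Gen.Eq.projBody_eq_iff (n := 3) (by norm_num) (pcN_pos 3) (div_pos (pcN_pos 4) (pcN_pos 3))
    (mul_div_cancel₀ _ (pcN_pos 3).ne') petty_three_fin petty_four_body contactEq_three hc hk hi

end

end Vale.Agent.P237.Four
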