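import Vale.Agent.P237.Gen.Contact
import Vale.Agent.P237.Gen.Euclid
import Vale.Agent.P237.Gen.GN.Petty
import Vale.Agent.P237.Profile
import Vale.Agent.P237.Every.Main

/-!
Petty's inequality in dimension four from the one-variable inequality for profiles.
-/

open MeasureTheory Set
open Vale.Agent.P237.Gen
open Vale.Agent.P237.Gen.Contact (pw semi Adm excess)

namespace Vale.Agent.P237.Four

noncomputable section

/-- The one-variable inequality in slice dimension three: a profile with at least the second moment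
of the ball of the same volume has at least its flatness. -/
def StageLemma : Prop :=
  ∀ g, Adm g →
    (pw 3 g / (3 * Real.pi / 16)) ^ (3 / 2 : ℝ) * (3 * Real.pi / 16) ≤
      6 * (∫ t in (0:ℝ)..1, t ^ 2 * g t ^ 3) →
    (pw 3 g / (3 * Real.pi / 16)) ^ 2 ≤ (pw 2 g / (2 / 3)) ^ 3

theorem pw_one_semi : pw 1 semi = Real.pi / 4 := GN.gnS_one

theorem pw_two_semi : pw 2 semi = 2 / 3 := by
  rw [← GN.gnS_eq_pw]
  have h := GN.gnS_step 0
  norm_num [GN.gnS_zero] at h
  linarith

theorem pw_three_semi : pw 3 semi = 3 * Real.pi / 16 := by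
  rw [← GN.gnS_eq_pw]
  have h := GN.gnS_step 1
  norm_num [GN.gnS_one] at h
  linarith

theorem pw_semi_le {g : ℝ → ℝ} (hg : Adm g) (m : ℕ) : pw m semi ≤ pw m g := by
  have h0 : ∀ t ∈ Icc (0:ℝ) 1, 0 ≤ g t := fun t ht => (Real.sqrt_nonneg _).trans (hg.ge t ht)
  refine intervalIntegral.integral_mono_on zero_le_one
    ((by unfold semi; fun_prop : Continuous fun t => semi t ^ m).intervalIntegrable _ _) ?_
    fun t ht => pow_le_pow_left₀ (Real.sqrt_nonneg _) (hg.ge t ht) m
  refine AntitoneOn.intervalIntegrable ?_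
  rw [uIcc_of_le zero_le_one]
  exact fun x hx y hy hxy => pow_le_pow_left₀ (h0 y hy) (hg.anti hx hy hxy) m

/-- A nonnegative averaged excess is the moment constraint. -/
theorem moment_of_excess {n : ℕ} {g : ℝ → ℝ} (hg : Adm g) (h : 0 ≤ excess n g) :
    (pw n g / pw n semi) ^ (2 / ((n : ℝ) + 1)) * pw n g ≤
      ((n : ℝ) + 3) * ∫ t in (0:ℝ)..1, t ^ 2 * g t ^ n := by
  have hS : 0 < pw n semi := Contact.pw_semi_pos n
  have hW : 0 < pw n g := hS.trans_le (pw_semi_le hg n)
  have hd : 0 < pw n g * (pw n g / pw n semi) ^ (2 / ((n : ℝ) + 1)) :=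
    mul_pos hW (Real.rpow_pos_of_pos (div_pos hW hS) _)
  rw [excess, le_div_iff₀ two_pos, zero_mul, sub_nonneg, one_le_div hd, mul_comm (pw n g)] at h
  exact h

theorem sharpContact_two : SharpContact 2 := by
  refine sharpContact_of_profile le_rfl zero_le_one le_rfl fun f hf hψ => ?_
  have h0 : 0 ≤ excess 2 f := by
    simpa using hψ 0 contDiff_const fun t => by simp
  have hm := moment_of_excess hf h0
  have hp := profile_lemma f hf.conc hf.anti hf.ge ?_
  · simp only [pw_one_semi, pw_two_semi, show (2:ℕ) - 1 = 1 from rfl, pow_one]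
    simp only [pw, pow_one] at hp ⊢
    nlinarith [hp, Real.pi_pos]
  · rw [pw_two_semi] at hm
    norm_num at hm
    simp only [pw] at hm
    rw [show (3 / 2 : ℝ) * (∫ t in (0:ℝ)..1, f t ^ 2) = (∫ t in (0:ℝ)..1, f t ^ 2) / (2 / 3) by ring]
    linarith

theorem sharpContact_three (hS : StageLemma) : SharpContact 3 := by
  refine sharpContact_of_profile (by norm_num) zero_le_one le_rfl fun f hf hψ => ?_
  have h0 : 0 ≤ excess 3 f := by
    simpa using hψ 0 contDiff_const fun t => by simp
  have hm := moment_of_excess hf h0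
  rw [pw_three_semi] at hm
  norm_num at hm
  have hW : 0 < pw 3 f := (Contact.pw_semi_pos 3).trans_le (pw_semi_le hf 3)
  have hR : 0 < pw 3 f / (3 * Real.pi / 16) := by positivity
  have hmain := hS f hf ?_
  · simp only [pw_two_semi, pw_three_semi, show (3:ℕ) - 1 = 2 from rfl]
    have hpi := Real.pi_pos
    rw [div_pow (pw 3 f), div_pow (pw 2 f), div_le_div_iff₀ (by positivity) (by positivity)] at hmain
    linarith
  · refine le_trans (le_of_eq ?_) hm
    rw [show (3 / 2 : ℝ) = 1 / 2 + 1 by norm_num, Real.rpow_add hR, Real.rpow_one]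
    field_simp

/-- **Petty's inequality in dimension four**, given the one-variable inequality. -/
theorem petty_four (hS : StageLemma) {K : Set (EuclideanSpace ℝ (Fin 4))}
    (hc : Convex ℝ K) (hk : IsCompact K) :
    pcN 4 * volume.real K ^ 3 ≤ volume.real (Gen.projBody K) := by
  have hk' : IsCompact (WithLp.ofLp '' K) := hk.image (PiLp.continuous_ofLp 2 _)
  have hc' : Convex ℝ (WithLp.ofLp '' K) :=
    hc.linear_image (WithLp.linearEquiv 2 ℝ (Fin 4 → ℝ)).toLinearMap
  have h := petty_of_sharpContact 4 (by norm_num) (fun n h2 h4 => by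
    interval_cases n
    · exact sharpContact_two
    · exact sharpContact_three hS) (WithLp.ofLp '' K) hk' hc'
  have hvK : volume.real (WithLp.ofLp '' K) = volume.real K := by
    have e : K = WithLp.ofLp ⁻¹' (WithLp.ofLp '' K) :=
      (preimage_image_eq K (WithLp.ofLp_injective 2)).symm
    conv_rhs => rw [e]
    rw [measureReal_def, measureReal_def,
      (PiLp.volume_preserving_ofLp (Fin 4)).measure_preimage
        hk'.measurableSet.nullMeasurableSet]
  rw [hvK] at h
  rw [Gen.projBody_eq hc hk, measureReal_def (s := WithLp.ofLp ⁻¹' _),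
    (PiLp.volume_preserving_ofLp (Fin 4)).measure_preimage
      (show IsCompact (AllN.piSet (WithLp.ofLp '' K)) from
        AllN.isCompact_sub _).measurableSet.nullMeasurableSet, ← measureReal_def]
  exact h

/-- The same bound, written with the ball volumes. -/
theorem petty_four_kappa (hS : StageLemma) {K : Set (EuclideanSpace ℝ (Fin 4))}
    (hc : Convex ℝ K) (hk : IsCompact K) :
    Every.kappa 3 ^ 4 / Every.kappa 4 ^ 2 * volume.real K ^ 3 ≤
      volume.real (Every.projBody K) :=
  petty_four hS hc hk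

end

end Vale.Agent.P237.Four
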