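import Vale.Agent.P237.Four.Deriv
import Vale.Agent.P237.Four.Wiring

/-!
The one-variable inequality for `ℝ⁴`, from the sign of the derivative along the path.
-/

namespace Vale.Agent.P237.Four

open Set MeasureTheory Filter Profile
open scoped Topology Real
open Gen.Contact (pw semi)

noncomputable section

variable {g : ℝ → ℝ}

lemma sq_moment_semi : (∫ t in (0:ℝ)..1, t ^ 2 * √(1 - t ^ 2) ^ 3) = π / 32 := by
  have e : (∫ t in (0:ℝ)..1, t ^ 2 * √(1 - t ^ 2) ^ 3) = pw 3 semi - pw 5 semi := by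
    simp only [pw, semi]
    rw [← intervalIntegral.integral_sub
      ((by fun_prop : Continuous fun t : ℝ => √(1 - t ^ 2) ^ 3).intervalIntegrable 0 1)
      ((by fun_prop : Continuous fun t : ℝ => √(1 - t ^ 2) ^ 5).intervalIntegrable 0 1)]
    refine ii_congr zero_le_one fun t ht => ?_
    have h := Real.sq_sqrt (show (0:ℝ) ≤ 1 - t ^ 2 by nlinarith [ht.1, ht.2])
    rw [show √(1 - t ^ 2) ^ 5 = √(1 - t ^ 2) ^ 3 * √(1 - t ^ 2) ^ 2 by ring, h]
    ring
  have h3 := pw_three_semi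
  have h5 := Gen.GN.gnS_step 3
  norm_num at h5
  rw [Gen.GN.gnS_eq_pw, Gen.GN.gnS_eq_pw] at h5
  rw [e]
  linarith

lemma pow_intervalIntegrable (hg : Profile.Adm g) (k : ℕ) :
    IntervalIntegrable (fun t => g t ^ k) volume 0 1 := by
  refine AntitoneOn.intervalIntegrable ?_
  rw [uIcc_of_le zero_le_one]
  exact fun u hu v hv huv => pow_le_pow_left₀ (hg.nonneg hv) (hg.anti hu hv huv) k

lemma tsq_cube_intervalIntegrable (hg : Profile.Adm g) :
    IntervalIntegrable (fun t => t ^ 2 * g t ^ 3) volume 0 1 :=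
  (pow_intervalIntegrable hg 3).continuousOn_mul (by fun_prop)

lemma wpow_one_zero (hg : Profile.Adm g) : wpow (fun _ => 1) 2 g 0 = 2 / 3 := by
  rw [wpow_zero hg, ← pw_two_semi]
  simp [pw, semi]

lemma wpow_w_zero (hg : Profile.Adm g) (P : Par) :
    wpow P.w 3 g 0 = P.a * (3 * π / 16) + 6 * P.b * (π / 32) := by
  have h1 : Continuous fun t : ℝ => √(1 - t ^ 2) ^ 3 := by fun_prop
  have h2 : Continuous fun t : ℝ => t ^ 2 * √(1 - t ^ 2) ^ 3 := by fun_prop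
  rw [wpow_zero hg, ← sq_moment_semi, ← pw_three_semi]
  simp only [pw, semi, Par.w, ← intervalIntegral.integral_const_mul]
  rw [← intervalIntegral.integral_add ((h1.const_mul _).intervalIntegrable 0 1)
    ((h2.const_mul _).intervalIntegrable 0 1)]
  exact intervalIntegral.integral_congr fun t _ => by ring

lemma integral_w_cube (hg : Profile.Adm g) (P : Par) :
    (∫ t in (0:ℝ)..1, P.w t * g t ^ 3) =
      P.a * (∫ t in (0:ℝ)..1, g t ^ 3) + 6 * P.b * ∫ t in (0:ℝ)..1, t ^ 2 * g t ^ 3 := by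
  rw [← intervalIntegral.integral_const_mul, ← intervalIntegral.integral_const_mul,
    ← intervalIntegral.integral_add ((pow_intervalIntegrable hg 3).const_mul _)
      ((tsq_cube_intervalIntegrable hg).const_mul _)]
  exact intervalIntegral.integral_congr fun t _ => by simp only [Par.w]; ring

/-- The sign of the derivative along the path. -/
def DPsiNonneg : Prop :=
  ∀ P : Par, P = parA ∨ P = parB → ∀ g, Profile.Adm g → ∀ q : ℝ, 0 ≤ q → q < 1 →
    (∫ t in (0:ℝ)..1, g t ^ 3) ≤ 3 * π / 4 → 0 ≤ dpsi P g q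

/-- The inequality between the two ends of the path. -/
theorem psi_ends (hd : DPsiNonneg) {P : Par} (hP : P = parA ∨ P = parB) (hg : Profile.Adm g)
    (hW : (∫ t in (0:ℝ)..1, g t ^ 3) ≤ 3 * π / 4) :
    P.a * ((∫ t in (0:ℝ)..1, g t ^ 3) / (3 * π / 16) - 1)
        + P.b * (6 * (∫ t in (0:ℝ)..1, t ^ 2 * g t ^ 3) / (3 * π / 16) - 1)
      ≤ (1 - P.θ) * (3 / 2 * (∫ t in (0:ℝ)..1, g t ^ 2) - 1)
        + P.θ * ((3 / 2 * ∫ t in (0:ℝ)..1, g t ^ 2) ^ 2 - 1) := by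
  have hmono : ∀ b ∈ Ico (0:ℝ) 1, psi P g 0 ≤ psi P g b := by
    intro b hb
    have := image_le_of_deriv_right_le_deriv_boundary (f := fun q => -psi P g q)
      (f' := fun q => -dpsi P g q) (a := 0) (b := b) (continuousOn_psi hg P hb.2).neg
      (fun q hq => ((hasDeriv_psi hg P hq.1 (hq.2.trans hb.2)).Ici_of_Ioi).neg)
      (B := fun _ => -psi P g 0) (B' := fun _ => 0) le_rfl continuousOn_const
      (fun q _ => hasDerivWithinAt_const q _ _)
      (fun q hq => neg_nonpos.2 (hd P hP g hg q hq.1 (hq.2.trans hb.2) hW))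
      (right_mem_Icc.2 hb.1)
    simpa using this
  have h2 := (tendsto_wpow hg (continuous_const (y := (1:ℝ))) 2).const_mul (3 / 2 : ℝ)
  have h3 := (tendsto_wpow hg P.continuous_w 3).const_mul (16 / (3 * π))
  simp only [one_mul] at h2
  have hlim : Tendsto (psi P g) (𝓝[<] 1) (𝓝 ((1 - P.θ) * (3 / 2 * ∫ t in (0:ℝ)..1, g t ^ 2)
      + P.θ * (3 / 2 * ∫ t in (0:ℝ)..1, g t ^ 2) ^ 2
      - 16 / (3 * π) * ∫ t in (0:ℝ)..1, P.w t * g t ^ 3)) := by
    rw [funext (psi_eq P g)]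
    exact ((h2.const_mul _).add ((h2.pow 2).const_mul _)).sub h3
  have hend := ge_of_tendsto hlim (Filter.mem_of_superset (Ioo_mem_nhdsLT zero_lt_one)
    fun q hq => hmono q ⟨hq.1.le, hq.2⟩)
  rw [psi_eq, wpow_one_zero hg, wpow_w_zero hg, integral_w_cube hg] at hend
  field_simp at hend ⊢
  linarith

lemma moment_le_third (hg : Profile.Adm g) :
    (∫ t in (0:ℝ)..1, t ^ 2 * g t ^ 3) ≤ (∫ t in (0:ℝ)..1, g t ^ 3) / 3 := by
  have hr : (0:ℝ) ≤ √(1/3) ∧ √(1/3) ≤ 1 :=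
    ⟨Real.sqrt_nonneg _, Real.sqrt_le_one.2 (by norm_num)⟩
  have hr2 : √(1/3 : ℝ) ^ 2 = 1/3 := Real.sq_sqrt (by norm_num)
  set r := √(1/3 : ℝ)
  have ha : AntitoneOn (fun t => g t ^ 3) (Icc (0:ℝ) 1) :=
    fun u hu v hv huv => pow_le_pow_left₀ (hg.nonneg hv) (hg.anti hu hv huv) 3
  have hle : ∀ t ∈ Icc (0:ℝ) 1, t ^ 2 * g t ^ 3 ≤ 1/3 * g t ^ 3 + g r ^ 3 * (t ^ 2 - 1/3) := by
    intro t ht
    rcases le_total t r with h | h
    · have h1 := ha ht hr h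
      have h2 : t ^ 2 ≤ 1/3 := hr2 ▸ pow_le_pow_left₀ ht.1 h 2
      nlinarith
    · have h1 := ha hr ht h
      have h2 : 1/3 ≤ t ^ 2 := hr2 ▸ pow_le_pow_left₀ hr.1 h 2
      nlinarith
  have hc : IntervalIntegrable (fun t : ℝ => g r ^ 3 * (t ^ 2 - 1/3)) volume 0 1 :=
    (by fun_prop : Continuous fun t : ℝ => g r ^ 3 * (t ^ 2 - 1/3)).intervalIntegrable 0 1
  have h := intervalIntegral.integral_mono_on zero_le_one (tsq_cube_intervalIntegrable hg)
    (((pow_intervalIntegrable hg 3).const_mul _).add hc) hle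
  rw [intervalIntegral.integral_add ((pow_intervalIntegrable hg 3).const_mul _) hc,
    intervalIntegral.integral_const_mul, intervalIntegral.integral_const_mul,
    intervalIntegral.integral_sub ((by fun_prop : Continuous fun t : ℝ => t ^ 2).intervalIntegrable
      0 1) intervalIntegrable_const, integral_pow] at h
  norm_num at h
  linarith

/-- The final polynomial for `R ≤ 13/10`. -/
lemma polyA {v : ℝ} (h1 : 1 ≤ v) (h2 : v ≤ 10448/10000) :
    (1 - parA.θ) * (v ^ 4 - 1) + parA.θ * (v ^ 8 - 1) ≤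
      parA.a * (v ^ 6 - 1) + parA.b * (v ^ 9 - 1) := by
  obtain ⟨w, rfl⟩ : ∃ w, v = 1 + w := ⟨v - 1, by ring⟩
  have hw : 0 ≤ w := by linarith
  have hW : w ≤ 448/10000 := by linarith
  have hk : ∀ k : ℕ, w ^ (k + 2) ≤ (448/10000 : ℝ) ^ k * w ^ 2 := fun k => by
    rw [pow_add]; gcongr
  norm_num [parA, Par.θ, Par.a, Par.b]
  ring_nf
  nlinarith [hw, sq_nonneg w, hk 1, hk 2, hk 3, hk 4, hk 5, pow_nonneg hw 7, pow_nonneg hw 8,
    pow_nonneg hw 9]

/-- The final polynomial for `13/10 ≤ R ≤ 4`. -/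
lemma polyB {v : ℝ} (h1 : 10446/10000 ≤ v) (h2 : v ≤ 126/100) :
    (1 - parB.θ) * (v ^ 4 - 1) + parB.θ * (v ^ 8 - 1) ≤
      parB.a * (v ^ 6 - 1) + parB.b * (v ^ 9 - 1) := by
  obtain ⟨w, rfl⟩ : ∃ w, v = 10446/10000 + w := ⟨v - 10446/10000, by ring⟩
  have hw : 0 ≤ w := by linarith
  have hW : w ≤ 2154/10000 := by linarith
  have hk : ∀ k : ℕ, w ^ (k + 2) ≤ (2154/10000 : ℝ) ^ k * w ^ 2 := fun k => by
    rw [pow_add]; gcongr
  have h22 : w ^ 2 ≤ 2154/10000 * w := by nlinarith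
  norm_num [parB, Par.θ, Par.a, Par.b]
  ring_nf
  nlinarith [hw, h22, sq_nonneg w, hk 1, hk 2, hk 3, hk 4, pow_nonneg hw 7, pow_nonneg hw 8,
    pow_nonneg hw 9]

/-- Strict form of `polyA`. -/
lemma polyA_strict {v : ℝ} (h1 : 1 < v) (h2 : v ≤ 10448/10000) :
    (1 - parA.θ) * (v ^ 4 - 1) + parA.θ * (v ^ 8 - 1) <
      parA.a * (v ^ 6 - 1) + parA.b * (v ^ 9 - 1) := by
  obtain ⟨w, rfl⟩ : ∃ w, v = 1 + w := ⟨v - 1, by ring⟩
  have hw0 : 0 < w := by linarith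
  have hw : 0 ≤ w := hw0.le
  have hW : w ≤ 448/10000 := by linarith
  have hk : ∀ k : ℕ, w ^ (k + 2) ≤ (448/10000 : ℝ) ^ k * w ^ 2 := fun k => by
    rw [pow_add]; gcongr
  norm_num [parA, Par.θ, Par.a, Par.b]
  ring_nf
  nlinarith [hw0, hw, sq_nonneg w, hk 1, hk 2, hk 3, hk 4, hk 5, pow_nonneg hw 7, pow_nonneg hw 8,
    pow_nonneg hw 9]

/-- Strict form of `polyB`. -/
lemma polyB_strict {v : ℝ} (h1 : 10446/10000 ≤ v) (h2 : v ≤ 126/100) :
    (1 - parB.θ) * (v ^ 4 - 1) + parB.θ * (v ^ 8 - 1) <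
      parB.a * (v ^ 6 - 1) + parB.b * (v ^ 9 - 1) := by
  obtain ⟨w, rfl⟩ : ∃ w, v = 10446/10000 + w := ⟨v - 10446/10000, by ring⟩
  have hw : 0 ≤ w := by linarith
  have hW : w ≤ 2154/10000 := by linarith
  have hk : ∀ k : ℕ, w ^ (k + 2) ≤ (2154/10000 : ℝ) ^ k * w ^ 2 := fun k => by
    rw [pow_add]; gcongr
  have h22 : w ^ 2 ≤ 2154/10000 * w := by nlinarith
  norm_num [parB, Par.θ, Par.a, Par.b]
  ring_nf
  nlinarith [hw, h22, sq_nonneg w, hk 1, hk 2, hk 3, hk 4, pow_nonneg hw 7, pow_nonneg hw 8,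
    pow_nonneg hw 9]

lemma phi_strictMono {θ x y : ℝ} (hθ0 : 0 ≤ θ) (hθ1 : θ < 1) (hy : 0 ≤ y) (hyx : y < x) :
    (1 - θ) * y + θ * y ^ 2 < (1 - θ) * x + θ * x ^ 2 := by
  have h1 := mul_lt_mul_of_pos_left hyx (sub_pos.2 hθ1)
  have h2 := mul_le_mul_of_nonneg_left (pow_le_pow_left₀ hy hyx.le 2) hθ0
  linarith

/-- The inequality with its equality case. -/
theorem stage_core (hd : DPsiNonneg) {g : ℝ → ℝ} (hg : Gen.Contact.Adm g)
    (hmom : (pw 3 g / (3 * π / 16)) ^ (3 / 2 : ℝ) * (3 * π / 16) ≤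
      6 * (∫ t in (0:ℝ)..1, t ^ 2 * g t ^ 3)) :
    (pw 3 g / (3 * π / 16)) ^ 2 ≤ (pw 2 g / (2 / 3)) ^ 3 ∧
      (1 < pw 3 g / (3 * π / 16) →
        (pw 3 g / (3 * π / 16)) ^ 2 < (pw 2 g / (2 / 3)) ^ 3) := by
  have hA : Profile.Adm g := ⟨hg.conc, hg.anti, hg.ge⟩
  set c : ℝ := 3 * π / 16 with hc
  have hc0 : 0 < c := by rw [hc]; positivity
  have hW0 : c ≤ pw 3 g := pw_three_semi.symm.le.trans (pw_semi_le hg 3)
  set R := pw 3 g / c with hR
  have hR1 : 1 ≤ R := (one_le_div hc0).2 hW0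
  have hR0 : 0 ≤ R := zero_le_one.trans hR1
  set v := R ^ (1 / 6 : ℝ) with hv
  have hv0 : 0 ≤ v := Real.rpow_nonneg hR0 _
  have hv6 : v ^ 6 = R := by
    rw [hv, ← Real.rpow_natCast, ← Real.rpow_mul hR0]; norm_num
  have hv9 : v ^ 9 = R ^ (3 / 2 : ℝ) := by
    rw [hv, ← Real.rpow_natCast, ← Real.rpow_mul hR0]; norm_num
  have hv1 : 1 ≤ v := Real.one_le_rpow hR1 (by norm_num)
  rw [← hv9] at hmom
  have hT := moment_le_third hA
  change (∫ t in (0:ℝ)..1, t ^ 2 * g t ^ 3) ≤ pw 3 g / 3 at hT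
  have hRW : pw 3 g = v ^ 6 * c := by rw [hv6, hR]; field_simp
  have h93 : v ^ 9 ≤ 2 * v ^ 6 := by
    refine le_of_mul_le_mul_right ?_ hc0
    linarith
  have hv3 : v ^ 3 ≤ 2 := by
    refine le_of_mul_le_mul_right ?_ (pow_pos (zero_lt_one.trans_le hv1) 6)
    calc v ^ 3 * v ^ 6 = v ^ 9 := by ring
      _ ≤ 2 * v ^ 6 := h93
  have hW : (∫ t in (0:ℝ)..1, g t ^ 3) ≤ 3 * π / 4 := by
    change pw 3 g ≤ _
    have h4 : v ^ 6 ≤ 4 := by
      calc v ^ 6 = (v ^ 3) ^ 2 := by ring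
        _ ≤ 2 ^ 2 := pow_le_pow_left₀ (by positivity) hv3 2
        _ = 4 := by norm_num
    rw [hRW]
    calc v ^ 6 * c ≤ 4 * c := mul_le_mul_of_nonneg_right h4 hc0.le
      _ = 3 * π / 4 := by rw [hc]; ring
  have key : ∀ P : Par, P = parA ∨ P = parB → 0 ≤ P.θ → P.θ < 1 → 0 ≤ P.b →
      ((1 - P.θ) * (v ^ 4 - 1) + P.θ * (v ^ 8 - 1) ≤ P.a * (v ^ 6 - 1) + P.b * (v ^ 9 - 1) →
        v ^ 4 ≤ 3 / 2 * pw 2 g) ∧
      ((1 - P.θ) * (v ^ 4 - 1) + P.θ * (v ^ 8 - 1) < P.a * (v ^ 6 - 1) + P.b * (v ^ 9 - 1) →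
        v ^ 4 < 3 / 2 * pw 2 g) := by
    intro P hP hθ0 hθ1 hb
    have h := psi_ends hd hP hA hW
    change P.a * (R - 1) + P.b * (6 * (∫ t in (0:ℝ)..1, t ^ 2 * g t ^ 3) / c - 1) ≤
      (1 - P.θ) * (3 / 2 * pw 2 g - 1) + P.θ * ((3 / 2 * pw 2 g) ^ 2 - 1) at h
    rw [← hv6] at h
    have hT' : v ^ 9 ≤ 6 * (∫ t in (0:ℝ)..1, t ^ 2 * g t ^ 3) / c := (le_div_iff₀ hc0).2 hmom
    have hbT := mul_le_mul_of_nonneg_left hT' hb
    have hy0 : (0:ℝ) ≤ 3 / 2 * pw 2 g := by linarith [pw_semi_le hg 2, pw_two_semi]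
    refine ⟨fun hp => ?_, fun hp => ?_⟩
    · by_contra hlt
      have := phi_strictMono hθ0 hθ1 hy0 (not_le.1 hlt)
      rw [← pow_mul] at this
      norm_num at this
      linarith
    · by_contra hlt
      rcases (not_lt.1 hlt).eq_or_lt with e | e
      · rw [e, ← pow_mul] at h
        norm_num at h
        linarith
      · have := phi_strictMono hθ0 hθ1 hy0 e
        rw [← pow_mul] at this
        norm_num at this
        linarith
  have hAv : R ≤ 13/10 → v ≤ 10448/10000 := fun hle => by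
    refine le_of_pow_le_pow_left₀ (show (6:ℕ) ≠ 0 by norm_num) (by norm_num) ?_
    rw [hv6]; exact hle.trans (by norm_num)
  have hBv : 13/10 ≤ R → 10446/10000 ≤ v := fun hle => by
    refine le_of_pow_le_pow_left₀ (show (6:ℕ) ≠ 0 by norm_num) hv0 ?_
    rw [hv6]; exact le_trans (by norm_num) hle
  have hv126 : v ≤ 126/100 := le_of_pow_le_pow_left₀ (show (3:ℕ) ≠ 0 by norm_num) (by norm_num)
    (hv3.trans (by norm_num))
  have kA := key parA (Or.inl rfl) (by norm_num [Par.θ, parA]) (by norm_num [Par.θ, parA])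
    (by norm_num [Par.b, parA])
  have kB := key parB (Or.inr rfl) (by norm_num [Par.θ, parB]) (by norm_num [Par.θ, parB])
    (by norm_num [Par.b, parB])
  have e2 : R ^ 2 = (v ^ 4) ^ 3 := by rw [← hv6]; ring
  have e3 : (3 / 2 * pw 2 g) ^ 3 = (pw 2 g / (2 / 3)) ^ 3 := by ring
  constructor
  · have hy : v ^ 4 ≤ 3 / 2 * pw 2 g := by
      rcases le_total R (13/10) with hle | hle
      · exact kA.1 (polyA hv1 (hAv hle))
      · exact kB.1 (polyB (hBv hle) hv126)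
    rw [e2, ← e3]
    exact pow_le_pow_left₀ (by positivity) hy 3
  · intro hR1'
    have hv1' : 1 < v := Real.one_lt_rpow hR1' (by norm_num)
    have hy : v ^ 4 < 3 / 2 * pw 2 g := by
      rcases le_total R (13/10) with hle | hle
      · exact kA.2 (polyA_strict hv1' (hAv hle))
      · exact kB.2 (polyB_strict (hBv hle) hv126)
    rw [e2, ← e3]
    exact pow_lt_pow_left₀ hy (by positivity) (by norm_num)

/-- **The one-variable inequality in slice dimension three**, given the sign of the derivative. -/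
theorem stageLemma_of_dpsi (hd : DPsiNonneg) : StageLemma :=
  fun _ hg hmom => (stage_core hd hg hmom).1

end

end Vale.Agent.P237.Four
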