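import Vale.Agent.P237.Four.Defs

/-!
# The leaf test of the certificate for `ℝ⁴`
-/

namespace Vale.Agent.P237.Four

open Stage (AF N Rep)

/-- Bisection tree; a leaf stores an enclosing line for `√(1-S²)` on its `S`-interval. -/
inductive Tree where
  | leaf (qc qx qe : ℤ)
  | splitS (l r : Tree)
  | splitM (l r : Tree)

/-- `p`, the left end of the tangent segment. -/
noncomputable def pR (S q m : ℝ) : ℝ := q - m * S

/-- The value of the tangent at `p`. -/
noncomputable def lR (S q m : ℝ) : ℝ := S + q * m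

/-- The first moment of the tangent against its derivative, times `S / m²`. -/
noncomputable def uR (S q m : ℝ) : ℝ := 1/2 * S + 1/3 * (q * m)

/-- The second moment of the tangent against its derivative, times `S / m²`. -/
noncomputable def sqR (S q m : ℝ) : ℝ :=
  1/2 * (S * S) + (2/3 * (S * (q * m)) + 1/4 * (q * m * (q * m)))

/-- The weighted second moment of the tangent against its derivative, times `S / m²`. -/
noncomputable def wsqR (S q m : ℝ) : ℝ :=
  let a := S * q
  let b := q * q - S * S
  1/2 * (a * a) + (2/3 * (a * b * m) +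
    (m * m * (1/4 * (b * b - 2 * (a * a)) - 2/5 * (a * b * m) + 1/6 * (a * a * (m * m)))))

/-- The gain of the square on the segment. -/
noncomputable def g0R (S m : ℝ) : ℝ := m * m * m * S * (1/3)

/-- The gain of the square left of the segment, from the chord up to a fraction of `p`. -/
noncomputable def glR (w σ S q m : ℝ) : ℝ :=
  w * pR S q m * (lR S q m * lR S q m - 1 + pR S q m * pR S q m * σ)

/-- An integer over an integer as an affine form. -/
def k (n d : ℤ) : AF := AF.const n d

/-- The quantities used by the checker. -/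
structure Parts where
  p : AF
  small : AF
  B0 : AF
  B1 : AF
  B2 : AF

/-- The quantities at a box. -/
def parts (P : Par) (S q m : AF) : Parts :=
  let mS := m * S
  let p := q - mS
  let qm := q * m
  let L := S + qm
  let m2 := m * m
  let m3 := m2 * m
  let S2 := S * S
  let c := L * L - k 1 1
  let p2 := p * p
  let kA := k (P.c1 * 5092960) 100000000000
  let kB := k (6 * P.c2 * 5092960) 100000000000
  let small := k (3 * (10000 + P.th)) 10000 - k ((P.c1 + 6 * P.c2) * 5092960) 100000000000 * L
  let u := k 1 2 * S + k 1 3 * qm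
  let sq := k 1 2 * S2 + (k 2 3 * (S * qm) + k 1 4 * (qm * qm))
  let a := S * q
  let b := q * q - S2
  let a2 := a * a
  let am := (a * b) * m
  let wsq := k 1 2 * a2 + (k 2 3 * am +
    (m2 * (k 1 4 * (b * b - k 2 1 * a2) - k 2 5 * am + k 1 6 * (a2 * m2))))
  let base := k 3 1 * u
  let neg := kA * sq + kB * wsq
  let g0 := m3 * S * k 1 3
  let top := k (10000 + P.th) 10000
  let th3 := k (3 * P.th) 10000
  let gl0 := k 4 4 * p * (c + p2 * k 1 3)
  let gl1 := k 2 4 * p * (c + p2 * k 7 12)
  ⟨p, small, (top + th3 * g0) * base - neg, (top + th3 * (g0 + gl0)) * base - neg,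
    (top + th3 * (g0 + gl1)) * base - neg⟩

/-- The leaf test. -/
def leafOK (P : Par) (A B C D qc qx qe : ℤ) : Bool :=
  let sc := (A + B) / 2
  let sx := (B - A) / 2
  let u := qc + qe
  let Q := parts P ⟨sc, sx, 0, 0⟩ ⟨qc, qx, 0, qe⟩ ⟨(C + D) / 2, 0, (D - C) / 2, 0⟩
  decide ((A + B) % 2 = 0 ∧ (B - A) % 2 = 0 ∧ (C + D) % 2 = 0 ∧ (D - C) % 2 = 0)
    && decide ((qc - qe + qx) * (qc - qe + qx) + B * B ≤ N * N)
    && decide ((qc - qe - qx) * (qc - qe - qx) + A * A ≤ N * N)
    && decide (|qx| ≤ u ∧ 0 ≤ u * u + sc * sc - N * N ∧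
      (2 * (u * qx + sc * sx)) * (2 * (u * qx + sc * sx))
        ≤ 4 * (qx * qx + sx * sx) * (u * u + sc * sc - N * N))
    && (decide (Q.p.hi < 0) || decide (0 ≤ Q.small.lo) || decide (0 ≤ Q.B0.lo)
      || decide (0 ≤ Q.B1.lo) || decide (0 ≤ Q.B2.lo))

/-- The tree test. -/
def Tree.check (P : Par) : Tree → ℤ → ℤ → ℤ → ℤ → Bool
  | .leaf qc qx qe, A, B, C, D => leafOK P A B C D qc qx qe
  | .splitS l r, A, B, C, D =>
    l.check P A ((A + B) / 2) C D && r.check P ((A + B) / 2) B C D
  | .splitM l r, A, B, C, D =>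
    l.check P A B C ((C + D) / 2) && r.check P A B ((C + D) / 2) D

end Vale.Agent.P237.Four
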