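import Vale.Agent.P237.Four.Cert

/-!
# The stage inequality for `ℝ⁴`
-/

namespace Vale.Agent.P237.Four

open Stage (AF N N_cast_pos rep_const rep_sqrt affine_param)

/-- The hypotheses of a stage; `d` is the gain of the normalised square moment. -/
structure Hyp (S q m d : ℝ) : Prop where
  hS : 0 < S
  hq : 0 ≤ q
  hsq : q ^ 2 + S ^ 2 = 1
  hm : 0 ≤ m
  hm7 : m ≤ 7/2
  hp : 0 ≤ pR S q m
  hQ : wsqR S q m ≤ sqR S q m
  hd0 : 3/2 * g0R S m ≤ d
  hd1 : 3/2 * (g0R S m + glR 1 (1/3) S q m) ≤ d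
  hd2 : 3/2 * (g0R S m + glR (1/2) (7/12) S q m) ≤ d

/-- The negative part of the derivative, times `S / m²`. -/
noncomputable def negR (P : Par) (S q m : ℝ) : ℝ :=
  (P.c1:ℝ) * 5092960 / 100000000000 * sqR S q m
    + 6 * (P.c2:ℝ) * 5092960 / 100000000000 * wsqR S q m

/-- The conclusion of a stage. -/
def Concl (P : Par) (S q m d : ℝ) : Prop :=
  negR P S q m ≤ (1 + P.θ + 2 * P.θ * d) * (3 * uR S q m)

variable {P : Par} {S q m d : ℝ}

lemma uR_nonneg (h : Hyp S q m d) : 0 ≤ uR S q m := by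
  unfold uR; nlinarith [h.hS, mul_nonneg h.hq h.hm]

lemma concl_gain (h : Hyp S q m d) {G : ℝ} (hG : 3/2 * G ≤ d)
    (hb : 0 ≤ ((10000 + (P.th:ℝ)) / 10000 + 3 * (P.th:ℝ) / 10000 * G) * (3 * uR S q m)
      - negR P S q m) : Concl P S q m d := by
  have hθ : (0:ℝ) ≤ P.θ := by unfold Par.θ; positivity
  have e : (10000 + (P.th:ℝ)) / 10000 + 3 * (P.th:ℝ) / 10000 * G
      = 1 + P.θ + 2 * P.θ * (3/2 * G) := by unfold Par.θ; ring
  rw [e] at hb
  have := mul_le_mul_of_nonneg_right (mul_le_mul_of_nonneg_left hG (mul_nonneg zero_le_two hθ))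
    (mul_nonneg zero_le_three (uR_nonneg h))
  unfold Concl
  linarith

lemma concl_small (h : Hyp S q m d)
    (hb : 0 ≤ 3 * (10000 + (P.th:ℝ)) / 10000
      - ((P.c1:ℝ) + 6 * P.c2) * 5092960 / 100000000000 * lR S q m) : Concl P S q m d := by
  have hθ : (0:ℝ) ≤ P.θ := by unfold Par.θ; positivity
  have hu := uR_nonneg h
  have hqm := mul_nonneg h.hq h.hm
  have hd : 0 ≤ d := le_trans (by unfold g0R; have := h.hm; have := h.hS; positivity) h.hd0
  have hLu : sqR S q m ≤ lR S q m * uR S q m := by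
    have e : lR S q m * uR S q m - sqR S q m = 1/6 * (S * (q * m)) + 1/12 * (q * m * (q * m)) := by
      unfold lR uR sqR; ring
    have : 0 ≤ 1/6 * (S * (q * m)) + 1/12 * (q * m * (q * m)) := by
      have := h.hS; positivity
    linarith
  have hK1 : 0 ≤ (P.c1:ℝ) * 5092960 / 100000000000 := by positivity
  have hK2 : 0 ≤ 6 * (P.c2:ℝ) * 5092960 / 100000000000 := by positivity
  have a1 := mul_le_mul_of_nonneg_left h.hQ hK2
  have a2 := mul_le_mul_of_nonneg_left hLu (add_nonneg hK1 hK2)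
  have a3 := mul_nonneg hb hu
  have a4 : 0 ≤ P.θ * d * uR S q m := by positivity
  have e : 3 * (10000 + (P.th:ℝ)) / 10000 = 3 * (1 + P.θ) := by unfold Par.θ; ring
  rw [e] at a3
  unfold Concl negR
  linarith

lemma leaf_sound {A B C D qc qx qe : ℤ} {X Y : ℝ} (hX : |X| ≤ 1) (hY : |Y| ≤ 1)
    (hS : S * N = (((A + B) / 2 : ℤ) : ℝ) + (((B - A) / 2 : ℤ) : ℝ) * X)
    (hm : m * N = (((C + D) / 2 : ℤ) : ℝ) + (((D - C) / 2 : ℤ) : ℝ) * Y)
    (hok : leafOK P A B C D qc qx qe = true) (h : Hyp S q m d) : Concl P S q m d := by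
  unfold leafOK at hok
  simp only [Bool.and_eq_true, Bool.or_eq_true, decide_eq_true_eq] at hok
  obtain ⟨⟨⟨⟨⟨hAB, hBA, -, -⟩, h1⟩, h2⟩, hu, hg, hd⟩, hcase⟩ := hok
  have rS : Stage.Rep ⟨(A + B) / 2, (B - A) / 2, 0, 0⟩ X Y S := by
    unfold Stage.Rep; rw [hS]; simp
  have rm : Stage.Rep ⟨(C + D) / 2, 0, (D - C) / 2, 0⟩ X Y m := by
    unfold Stage.Rep; rw [hm]; simp
  have rq : Stage.Rep ⟨qc, qx, 0, qe⟩ X Y q := by
    have := rep_sqrt hX hAB hBA h1 h2 hu hg hd hS h.hq h.hsq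
    unfold Stage.Rep at this ⊢
    simpa using this
  have rk : ∀ (n e : ℤ) (v : ℝ), 0 < e → (n:ℝ) / e = v → Stage.Rep (k n e) X Y v :=
    fun n e v he hv => hv ▸ rep_const n e he
  have one := rk 1 1 1 one_pos (by norm_num)
  have c12 := rk 1 2 (1/2) (by norm_num) (by norm_num)
  have c13 := rk 1 3 (1/3) (by norm_num) (by norm_num)
  have c23 := rk 2 3 (2/3) (by norm_num) (by norm_num)
  have c14 := rk 1 4 (1/4) (by norm_num) (by norm_num)
  have c25 := rk 2 5 (2/5) (by norm_num) (by norm_num)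
  have c16 := rk 1 6 (1/6) (by norm_num) (by norm_num)
  have c21 := rk 2 1 2 one_pos (by norm_num)
  have c31 := rk 3 1 3 one_pos (by norm_num)
  have c44 := rk 4 4 1 (by norm_num) (by norm_num)
  have c24 := rk 2 4 (1/2) (by norm_num) (by norm_num)
  have c712 := rk 7 12 (7/12) (by norm_num) (by norm_num)
  have cA := rk ((P.c1:ℤ) * 5092960) 100000000000 ((P.c1:ℝ) * 5092960 / 100000000000)
    (by norm_num) (by push_cast; rfl)
  have cB := rk (6 * (P.c2:ℤ) * 5092960) 100000000000 (6 * (P.c2:ℝ) * 5092960 / 100000000000)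
    (by norm_num) (by push_cast; rfl)
  have cAB := rk (((P.c1:ℤ) + 6 * P.c2) * 5092960) 100000000000
    (((P.c1:ℝ) + 6 * P.c2) * 5092960 / 100000000000) (by norm_num) (by push_cast; rfl)
  have cT := rk (10000 + (P.th:ℤ)) 10000 ((10000 + (P.th:ℝ)) / 10000) (by norm_num)
    (by push_cast; rfl)
  have cT3 := rk (3 * (P.th:ℤ)) 10000 (3 * (P.th:ℝ) / 10000) (by norm_num) (by push_cast; rfl)
  have c3T := rk (3 * (10000 + (P.th:ℤ))) 10000 (3 * (10000 + (P.th:ℝ)) / 10000) (by norm_num)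
    (by push_cast; rfl)
  have rp := rq.sub (rm.mul hX hY rS)
  have rqm := rq.mul hX hY rm
  have rL := rS.add rqm
  have rm2 := rm.mul hX hY rm
  have rm3 := rm2.mul hX hY rm
  have rS2 := rS.mul hX hY rS
  have rc := (rL.mul hX hY rL).sub one
  have rp2 := rp.mul hX hY rp
  have rsmall := c3T.sub (cAB.mul hX hY rL)
  have ru := (c12.mul hX hY rS).add (c13.mul hX hY rqm)
  have rsq := (c12.mul hX hY rS2).add
    ((c23.mul hX hY (rS.mul hX hY rqm)).add (c14.mul hX hY (rqm.mul hX hY rqm)))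
  have ra := rS.mul hX hY rq
  have rb := (rq.mul hX hY rq).sub rS2
  have ra2 := ra.mul hX hY ra
  have ram := (ra.mul hX hY rb).mul hX hY rm
  have rwsq := (c12.mul hX hY ra2).add ((c23.mul hX hY ram).add
    (rm2.mul hX hY (((c14.mul hX hY ((rb.mul hX hY rb).sub (c21.mul hX hY ra2))).sub
      (c25.mul hX hY ram)).add (c16.mul hX hY (ra2.mul hX hY rm2)))))
  have rbase := c31.mul hX hY ru
  have rneg := (cA.mul hX hY rsq).add (cB.mul hX hY rwsq)
  have rg0 := (rm3.mul hX hY rS).mul hX hY c13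
  have rgl0 := (c44.mul hX hY rp).mul hX hY (rc.add (rp2.mul hX hY c13))
  have rgl1 := (c24.mul hX hY rp).mul hX hY (rc.add (rp2.mul hX hY c712))
  have rB0 := ((cT.add (cT3.mul hX hY rg0)).mul hX hY rbase).sub rneg
  have rB1 := ((cT.add (cT3.mul hX hY (rg0.add rgl0))).mul hX hY rbase).sub rneg
  have rB2 := ((cT.add (cT3.mul hX hY (rg0.add rgl1))).mul hX hY rbase).sub rneg
  rcases hcase with (((hp | hs) | hB0) | hB1) | hB2
  · have h' := rp.of_hi hX hY hp
    have h'' := h.hp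
    unfold pR at h''
    linarith
  · exact concl_small h (by simpa [lR] using rsmall.of_lo hX hY hs)
  · exact concl_gain h h.hd0
      (by simpa [g0R, uR, negR, sqR, wsqR] using rB0.of_lo hX hY hB0)
  · exact concl_gain h h.hd1
      (by simpa [g0R, glR, pR, lR, uR, negR, sqR, wsqR] using rB1.of_lo hX hY hB1)
  · exact concl_gain h h.hd2
      (by simpa [g0R, glR, pR, lR, uR, negR, sqR, wsqR] using rB2.of_lo hX hY hB2)

lemma tree_sound : ∀ (t : Tree) (A B C D : ℤ) {S q m d : ℝ},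
    t.check P A B C D = true → (A:ℝ) ≤ S * N → S * N ≤ B → (C:ℝ) ≤ m * N → m * N ≤ D →
    Hyp S q m d → Concl P S q m d := by
  intro t
  induction t with
  | leaf qc qx qe =>
    intro A B C D S q m d hc hA hB hC hD h
    have hpar : (A + B) % 2 = 0 ∧ (B - A) % 2 = 0 ∧ (C + D) % 2 = 0 ∧ (D - C) % 2 = 0 := by
      have := hc
      simp only [Tree.check, leafOK, Bool.and_eq_true, decide_eq_true_eq] at this
      exact this.1.1.1.1
    obtain ⟨p1, p2, p3, p4⟩ := hpar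
    obtain ⟨X, hX, hSX⟩ : ∃ X, |X| ≤ 1 ∧
        S * N = (((A + B) / 2 : ℤ) : ℝ) + (((B - A) / 2 : ℤ) : ℝ) * X := affine_param p1 p2 hA hB
    obtain ⟨Y, hY, hmY⟩ : ∃ Y, |Y| ≤ 1 ∧
        m * N = (((C + D) / 2 : ℤ) : ℝ) + (((D - C) / 2 : ℤ) : ℝ) * Y := affine_param p3 p4 hC hD
    exact leaf_sound hX hY hSX hmY hc h
  | splitS l r ihl ihr =>
    intro A B C D S q m d hc hA hB hC hD h
    simp only [Tree.check, Bool.and_eq_true] at hc
    rcases le_total (S * N) (((A + B) / 2 : ℤ) : ℝ) with hs | hs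
    · exact ihl _ _ _ _ hc.1 hA hs hC hD h
    · exact ihr _ _ _ _ hc.2 hs hB hC hD h
  | splitM l r ihl ihr =>
    intro A B C D S q m d hc hA hB hC hD h
    simp only [Tree.check, Bool.and_eq_true] at hc
    rcases le_total (m * N) (((C + D) / 2 : ℤ) : ℝ) with hs | hs
    · exact ihl _ _ _ _ hc.1 hA hB hC hs h
    · exact ihr _ _ _ _ hc.2 hA hB hs hD h

/-- **Stage inequality.** -/
theorem stage_ineq (hP : P = parA ∨ P = parB) (h : Hyp S q m d) : Concl P S q m d := by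
  have hS1 : S ≤ 1 := by nlinarith [h.hS, h.hsq, sq_nonneg q]
  have hN := N_cast_pos
  have hm0 : ((0:ℤ):ℝ) ≤ m * N := by push_cast; exact mul_nonneg h.hm hN.le
  have hS0 : ((0:ℤ):ℝ) ≤ S * N := by push_cast; exact mul_nonneg h.hS.le hN.le
  have hS2 : S * N ≤ (N:ℝ) := mul_le_of_le_one_left hN.le hS1
  have hm2 : m * N ≤ (((7 * N / 2 : ℤ)) : ℝ) := by
    have := h.hm7
    norm_num [N]
    linarith
  rcases hP with rfl | rfl
  · exact tree_sound treeA 0 N 0 (7 * N / 2) treeA_check hS0 hS2 hm0 hm2 h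
  · exact tree_sound treeB 0 N 0 (7 * N / 2) treeB_check hS0 hS2 hm0 hm2 h

end Vale.Agent.P237.Four
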